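import Vale.Agent.P180.H354.Count
import Vale.Agent.P180.H765.B1b
import Vale.Agent.P179.H166.Red

/-!
# Block B2: the number of irreducible characters over `KK k p` in a block with abelian defect group
-/

set_option linter.all false

namespace Vale.Agent.P180.H354

open Finset Subgroup
open Vale.Agent.P180.H393 (IsIr ev)
open Vale.Agent.P180.R2.H954.Hc (KK toKK charZero_KK)
open P179C (lam lam_add lam_smul lam_one lam_conv)
open P179P (Irr)
open P179Y (InL IsHomCF)

open scoped Classical

universe u

section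

variable {k : Type u} [Field k] (red : integralClosure ℤ ℂ →+* k) {G : Type} [Group G] [Fintype G]

theorem homCF_lam (χ : Irr G) : IsHomCF (lam red χ.1) where
  add a b := lam_add red χ.1 a b
  smul c a := lam_smul red χ.1 c a
  one := lam_one red χ.2
  mul _ _ ha hb := lam_conv red χ.2 ha hb

theorem inL_iff_lam {e : MonoidAlgebra k G} (he : P179C.IsBlock e) {l : (G → k) → k}
    (hl : IsHomCF l) (hle : l (fun g => e.coeff g) = 1) (χ : Irr G) :
    lam red χ.1 (fun g => e.coeff g) = 1 ↔ InL red l χ.1 := by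
  have hcf : P179C.IsCF (fun g => e.coeff g) := (P179C.mem_center_iff _).1 he.1
  constructor
  · intro h z hz
    have hprim := (P179C.isBlock_iff_prim ⟨e, he.1⟩).1 he
    have h1 := P179C.eq_of_prim hprim (homCF_lam red χ).toAlgHom hl.toAlgHom h hle
    have h2 := AlgHom.congr_fun h1 ⟨P179Y.mkF z, P179Y.mkF_mem hz⟩
    rw [(homCF_lam red χ).toAlgHom_mkF hz, hl.toAlgHom_mkF hz] at h2
    exact h2
  · intro h
    rw [h _ hcf, hle]

end

section

variable {k : Type u} [Field k] [IsAlgClosed k] {p : ℕ} [Fact p.Prime] [CharP k p]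
  {G : Type} [Group G] [Fintype G]

/-- The number of irreducible characters over `KK k p` which do not vanish at a lift of the block
`e` is the number of complex irreducible characters in the block. -/
theorem card_eq (red : integralClosure ℤ ℂ →+* k) {e : MonoidAlgebra k G}
    (he : IsBlockOf (⊤ : Subgroup G) e) {l : (G → k) → k} (hl : IsHomCF l)
    (hle : l (fun g => e.coeff g) = 1) {B : MonoidAlgebra (WittVector p k) G}
    (hBc : ∀ x, x * B = B * x) (hBB : B * B = B)
    (hBe : MonoidAlgebra.mapRingHom G (WittVector.constantCoeff (p := p) (R := k)) B = e) :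
    Nat.card {χ : G → KK k p // IsIr (KK k p) G χ ∧
      ev χ (MonoidAlgebra.mapRingHom G (toKK k p) B) ≠ 0} =
    Nat.card {χ : Irr G // InL red l χ.1} := by
  have hB := H765.isBlock_of he
  rw [card_lift red hB.2.1 (Subalgebra.mem_center_iff.1 hB.1) hBc hBB hBe]
  exact Nat.card_congr (Equiv.subtypeEquivRight fun χ => inL_iff_lam red hB hl hle χ)

/-- **Block B2** -/
theorem card_le {e a : MonoidAlgebra k G} {Q : Subgroup G} (he : IsBlockOf (⊤ : Subgroup G) e)
    (hQ : IsPGroup p Q) (hab : ∀ a ∈ Q, ∀ b ∈ Q, a * b = b * a) (ha : a ∈ Fix (cj k G) Q)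
    (hea : e = tr (cj k G) Q ⊤ a) (hbr : H768.Gd.br Q e ≠ 0)
    {B : MonoidAlgebra (WittVector p k) G} (hBc : ∀ x, x * B = B * x) (hBB : B * B = B)
    (hBe : MonoidAlgebra.mapRingHom G (WittVector.constantCoeff (p := p) (R := k)) B = e) :
    Nat.card {χ : G → KK k p // IsIr (KK k p) G χ ∧
      ev χ (MonoidAlgebra.mapRingHom G (toKK k p) B) ≠ 0} ≤ Nat.card Q ^ 2 := by
  obtain ⟨red⟩ := P179C.exists_red p k
  obtain ⟨l, -, hl, -, hle, hcard⟩ := H765.exists_card_inL_le_of_tr red he hQ hab ha hea hbr
  rw [card_eq red he hl hle hBc hBB hBe]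
  exact hcard

end

end Vale.Agent.P180.H354
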