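import Vale.Agent.P180.H354.Fm

/-!
P180 (F3): Witt's theorem for totally singular subspaces of a nondegenerate subspace `W`, with
isometries which are the identity on the orthogonal complement of `W`.
-/

namespace Vale.Agent.P180.H354.Fm

open Module Vale.Agent.P180.R2.H854

variable {K E : Type*} [Field K] [AddCommGroup E] [Module K E] {Φ : HForm K E} {q : E → K}
  {τ : K → K}

theorem eps_ne (Φ : HForm K E) : Φ.ε ≠ 0 := by
  intro h
  have := Φ.εε
  rw [h, zero_mul] at this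
  exact zero_ne_one this

/-- The map `x ↦ x + μ B(x, y) y`. -/
def trv (Φ : HForm K E) (y : E) (μ : K) : E →ₗ[K] E where
  toFun x := x + (μ * Φ.B x y) • y
  map_add' a b := by
    rw [Φ.add_left, mul_add, add_smul]
    abel
  map_smul' a x := by
    rw [Φ.smul_left, RingHom.id_apply, smul_add, smul_smul]
    congr 2
    ring

theorem trv_apply (Φ : HForm K E) (y : E) (μ : K) (x : E) :
    trv Φ y μ x = x + (μ * Φ.B x y) • y := rfl

/-- Singular vectors which are not orthogonal. -/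
theorem QP.exists_move1 [FiniteDimensional K E] (hq : QP Φ q τ) {W : Submodule K E} {u v : E}
    (hu : u ∈ W) (hv : v ∈ W) (hu0 : q u = 0) (hv0 : q v = 0) (h : Φ.B u v ≠ 0) :
    ∃ g ∈ GW Φ q W, (g : E ≃ₗ[K] E) u = v := by
  set b := Φ.B u v with hb
  have hθb : Φ.θ b ≠ 0 := (map_ne_zero Φ.θ).mpr h
  have huu : Φ.B u u = 0 := hq.iso u hu0
  have hvv : Φ.B v v = 0 := hq.iso v hv0
  have hvu : Φ.B v u = Φ.ε * Φ.θ b := Φ.symm u v
  have hyy : Φ.B (u - v) (u - v) = -b - Φ.ε * Φ.θ b := by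
    rw [Φ.sub_left, Φ.sub_right, Φ.sub_right, huu, hvv, hvu, ← hb]
    ring
  have hqy : q (u - v) = -τ b := by
    rw [sub_eq_add_neg, hq.add, hq.neg, hu0, hv0, Φ.neg_right, ← hb, hq.τ_neg]
    ring
  obtain ⟨g, hg, hgx⟩ := exists_GI (Φ := Φ) (q := q) (trv Φ (u - v) b⁻¹) (by
    intro x z
    have hyz : Φ.B (u - v) z = Φ.ε * Φ.θ (Φ.B z (u - v)) := Φ.symm z (u - v)
    rw [trv_apply, trv_apply, Φ.add_left, Φ.add_right, Φ.add_right, Φ.smul_left, Φ.smul_left,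
      Φ.smul_right, Φ.smul_right, hyy, hyz, map_mul, map_inv₀]
    field_simp
    ring) (by
    intro x
    have h1 := hq.τ_smul (b⁻¹ * Φ.B x (u - v)) b
    have h2 : b⁻¹ * Φ.B x (u - v) * Φ.θ (b⁻¹ * Φ.B x (u - v)) * b =
        Φ.θ (b⁻¹ * Φ.B x (u - v)) * Φ.B x (u - v) := by
      field_simp
    rw [h2] at h1
    rw [trv_apply, hq.add, hq.smul, hqy, Φ.smul_right, h1]
    ring)
  refine ⟨g, ⟨hg, fun x hx => ?_⟩, ?_⟩
  · rw [hgx, trv_apply, Φ.mem_perp.mp hx (u - v) (W.sub_mem hu hv), mul_zero, zero_smul, add_zero]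
  · rw [hgx, trv_apply, Φ.sub_right, huu, ← hb, zero_sub, mul_neg, inv_mul_cancel₀ h, neg_smul,
      one_smul]
    abel

/-- Correct a vector by a multiple of the singular vector `u` such that it becomes singular. -/
theorem QP.exists_sing (hq : QP Φ q τ) {u z : E} (hu0 : q u = 0) (h : Φ.B u z ≠ 0) :
    ∃ c : K, q (z + c • u) = 0 := by
  have hzu : Φ.B z u ≠ 0 := fun h0 => h (Φ.eq_zero_comm h0)
  obtain ⟨t, ht, -⟩ := hq.surj z
  refine ⟨Φ.θ (-t / Φ.B z u), ?_⟩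
  rw [hq.add, hq.smul, hu0, mul_zero, add_zero, Φ.smul_right, Φ.θθ, div_mul_cancel₀ _ hzu,
    hq.τ_neg, ht, add_neg_cancel]

theorem exists_ne {W : Submodule K E} (hW : W ⊓ Φ.perp W = ⊥) {u : E} (hu : u ∈ W) (h0 : u ≠ 0) :
    ∃ z ∈ W, Φ.B u z ≠ 0 := by
  by_contra hcon
  push Not at hcon
  apply h0
  have h1 : u ∈ W ⊓ Φ.perp W := ⟨hu, hcon⟩
  rwa [hW, Submodule.mem_bot] at h1

/-- A common singular partner of two orthogonal singular vectors. -/
theorem QP.exists_partner (hq : QP Φ q τ) {W : Submodule K E} (hW : W ⊓ Φ.perp W = ⊥) {u v : E}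
    (hu : u ∈ W) (hv : v ∈ W) (hu0 : q u = 0) (hu1 : u ≠ 0) (hv1 : v ≠ 0)
    (h : Φ.B u v = 0) : ∃ z ∈ W, q z = 0 ∧ Φ.B u z ≠ 0 ∧ Φ.B v z ≠ 0 := by
  have huu : Φ.B u u = 0 := hq.iso u hu0
  have hvu : Φ.B v u = 0 := Φ.eq_zero_comm h
  obtain ⟨z0, hz0, hz1, hz2⟩ : ∃ z ∈ W, Φ.B u z ≠ 0 ∧ Φ.B v z ≠ 0 := by
    obtain ⟨z1, hz1, h1⟩ := exists_ne hW hu hu1
    obtain ⟨z2, hz2, h2⟩ := exists_ne hW hv hv1
    by_cases h3 : Φ.B v z1 = 0
    · by_cases h4 : Φ.B u z2 = 0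
      · refine ⟨z1 + z2, W.add_mem hz1 hz2, ?_, ?_⟩
        · rwa [Φ.add_right, h4, add_zero]
        · rwa [Φ.add_right, h3, zero_add]
      · exact ⟨z2, hz2, h4, h2⟩
    · exact ⟨z1, hz1, h1, h3⟩
  obtain ⟨c, hc⟩ := hq.exists_sing hu0 hz1
  refine ⟨z0 + c • u, W.add_mem hz0 (W.smul_mem _ hu), hc, ?_, ?_⟩
  · rwa [Φ.add_right, Φ.smul_right, huu, mul_zero, add_zero]
  · rwa [Φ.add_right, Φ.smul_right, hvu, mul_zero, add_zero]

/-- The isometry group of `W` is transitive on the singular vectors of `W`. -/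
theorem QP.exists_move [FiniteDimensional K E] (hq : QP Φ q τ) {W : Submodule K E}
    (hW : W ⊓ Φ.perp W = ⊥) {u v : E} (hu : u ∈ W) (hv : v ∈ W) (hu0 : q u = 0) (hv0 : q v = 0)
    (hu1 : u ≠ 0) (hv1 : v ≠ 0) : ∃ g ∈ GW Φ q W, (g : E ≃ₗ[K] E) u = v := by
  by_cases h : Φ.B u v = 0
  · obtain ⟨z, hz, hz0, h1, h2⟩ := hq.exists_partner hW hu hv hu0 hu1 hv1 h
    obtain ⟨g, hg, hgu⟩ := hq.exists_move1 hu hz hu0 hz0 h1
    obtain ⟨g', hg', hgv⟩ := hq.exists_move1 hz hv hz0 hv0 (fun h0 => h2 (Φ.eq_zero_comm h0))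
    refine ⟨g' * g, (GW Φ q W).mul_mem hg' hg, ?_⟩
    change g' (g u) = v
    rw [hgu, hgv]
  · exact hq.exists_move1 hu hv hu0 hv0 h

/-- A hyperbolic partner: `B u z = 1`, `q z = 0`. -/
theorem QP.exists_hyp (hq : QP Φ q τ) {W : Submodule K E} (hW : W ⊓ Φ.perp W = ⊥) {u : E}
    (hu : u ∈ W) (hu0 : q u = 0) (hu1 : u ≠ 0) : ∃ z ∈ W, q z = 0 ∧ Φ.B u z = 1 := by
  obtain ⟨z, hz, hz0, h1, -⟩ := hq.exists_partner hW hu hu hu0 hu1 hu1 (hq.iso u hu0)
  refine ⟨Φ.θ (Φ.B u z)⁻¹ • z, W.smul_mem _ hz, hq.smul_zero' hz0 _, ?_⟩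
  rw [Φ.smul_right, Φ.θθ, inv_mul_cancel₀ h1]

section fin

variable [FiniteDimensional K E] [Finite K]

theorem GW_mem {W : Submodule K E} {g : E ≃ₗ[K] E} (hg : g ∈ GW Φ q W) {x : E} (hx : x ∈ W) :
    g x ∈ W := by
  rw [← Φ.perp_perp W]
  intro z hz
  rw [← hg.2 z hz, hg.1.1]
  exact Φ.mem_perp'.mp hz x hx

theorem GW_map {W : Submodule K E} {g : E ≃ₗ[K] E} (hg : g ∈ GW Φ q W) {A : Submodule K E}
    (hA : A ≤ W) : A.map (g : E →ₗ[K] E) ≤ W := by
  rintro _ ⟨x, hx, rfl⟩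
  exact GW_mem hg (hA hx)

/-- The complement of a hyperbolic plane. -/
theorem nondeg_inf {W : Submodule K E} (hW : W ⊓ Φ.perp W = ⊥) {v w : E} (hv : v ∈ W) (hw : w ∈ W)
    (hvv : Φ.B v v = 0) (hww : Φ.B w w = 0) (hvw : Φ.B v w = 1) :
    (W ⊓ Φ.perp (Submodule.span K {v, w})) ⊓ Φ.perp (W ⊓ Φ.perp (Submodule.span K {v, w})) = ⊥ := by
  have hwv : Φ.B w v = Φ.ε := by rw [Φ.symm v w, hvw, map_one, mul_one]
  have hmem : ∀ y, y ∈ Φ.perp (Submodule.span K {v, w}) ↔ Φ.B y v = 0 ∧ Φ.B y w = 0 := by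
    intro y
    constructor
    · intro h
      exact ⟨h v (Submodule.subset_span (by simp)), h w (Submodule.subset_span (by simp))⟩
    · rintro ⟨h1, h2⟩ z hz
      obtain ⟨a, b, rfl⟩ := Submodule.mem_span_pair.mp hz
      rw [Φ.add_right, Φ.smul_right, Φ.smul_right, h1, h2, mul_zero, mul_zero, add_zero]
  rw [eq_bot_iff]
  rintro x ⟨⟨hxW, hxH⟩, hx⟩
  rw [← hW]
  refine ⟨hxW, fun y hy => ?_⟩
  obtain ⟨hxv, hxw⟩ := (hmem x).mp hxH
  set y' := y - Φ.B y w • v - (Φ.B y v / Φ.ε) • w with hy'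
  have hε := eps_ne Φ
  have h1 : y' ∈ W ⊓ Φ.perp (Submodule.span K {v, w}) := by
    refine ⟨W.sub_mem (W.sub_mem hy (W.smul_mem _ hv)) (W.smul_mem _ hw), (hmem _).mpr ⟨?_, ?_⟩⟩
    · rw [hy', Φ.sub_left, Φ.sub_left, Φ.smul_left, Φ.smul_left, hvv, hwv]
      field_simp
      ring
    · rw [hy', Φ.sub_left, Φ.sub_left, Φ.smul_left, Φ.smul_left, hvw, hww]
      ring
  have h2 := hx y' h1
  rw [hy', Φ.sub_right, Φ.sub_right, Φ.smul_right, Φ.smul_right, hxv, hxw] at h2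
  simpa using h2

/-- Split off the line of `v`. -/
theorem split_line {C : Submodule K E} (hC : Sing Φ q C) {v w : E} (hv : v ∈ C)
    (hvw : Φ.B v w = 1) : Submodule.span K {v} ⊔ (C ⊓ Φ.perp (Submodule.span K {w})) = C ∧
      Submodule.span K {v} ⊓ (C ⊓ Φ.perp (Submodule.span K {w})) = ⊥ := by
  have hmem : ∀ y, y ∈ Φ.perp (Submodule.span K {w}) ↔ Φ.B y w = 0 := by
    intro y
    constructor
    · intro h
      exact h w (Submodule.mem_span_singleton_self w)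
    · intro h z hz
      obtain ⟨a, rfl⟩ := Submodule.mem_span_singleton.mp hz
      rw [Φ.smul_right, h, mul_zero]
  constructor
  · apply le_antisymm
    · refine sup_le ?_ inf_le_left
      rw [Submodule.span_singleton_le_iff_mem]
      exact hv
    · intro x hx
      rw [Submodule.mem_sup]
      refine ⟨Φ.B x w • v, Submodule.smul_mem _ _ (Submodule.mem_span_singleton_self v),
        x - Φ.B x w • v, ⟨C.sub_mem hx (C.smul_mem _ hv), (hmem _).mpr ?_⟩, by abel⟩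
      rw [Φ.sub_left, Φ.smul_left, hvw, mul_one, sub_self]
  · rw [eq_bot_iff]
    rintro x ⟨hx, -, hx2⟩
    obtain ⟨a, rfl⟩ := Submodule.mem_span_singleton.mp hx
    have h1 := (hmem _).mp hx2
    rw [Φ.smul_left, hvw, mul_one] at h1
    rw [h1, zero_smul, Submodule.mem_bot]

theorem finrank_split {C : Submodule K E} (hC : Sing Φ q C) {v w : E} (hv : v ∈ C)
    (hvw : Φ.B v w = 1) :
    finrank K (C ⊓ Φ.perp (Submodule.span K {w}) : Submodule K E) + 1 = finrank K C := by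
  obtain ⟨h1, h2⟩ := split_line hC hv hvw
  have hv0 : v ≠ 0 := by
    rintro rfl
    rw [Φ.zero_left] at hvw
    exact zero_ne_one hvw
  have h3 := Submodule.finrank_sup_add_finrank_inf_eq (Submodule.span K {v})
    (C ⊓ Φ.perp (Submodule.span K {w}))
  rw [h1, h2, finrank_bot, add_zero, finrank_span_singleton hv0] at h3
  omega

/-- **Witt's theorem**, with the dimension as a number. -/
theorem QP.witt_aux (hq : QP Φ q τ) : ∀ (n : ℕ) (W A B : Submodule K E), W ⊓ Φ.perp W = ⊥ →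
    A ≤ W → B ≤ W → Sing Φ q A → Sing Φ q B → finrank K A = n → finrank K B = n →
    ∃ g ∈ GW Φ q W, A.map (g : E →ₗ[K] E) = B := by
  intro n
  induction n with
  | zero =>
    intro W A B _ _ _ _ _ hAn hBn
    rw [Submodule.finrank_eq_zero] at hAn hBn
    subst hAn hBn
    exact ⟨1, (GW Φ q W).one_mem, Submodule.map_bot _⟩
  | succ n ih =>
    intro W A B hW hA hB hAs hBs hAn hBn
    have hA1 : A ≠ ⊥ := by
      rintro rfl
      rw [finrank_bot] at hAn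
      omega
    have hB1 : B ≠ ⊥ := by
      rintro rfl
      rw [finrank_bot] at hBn
      omega
    obtain ⟨u, hu, hu1⟩ := Submodule.exists_mem_ne_zero_of_ne_bot hA1
    obtain ⟨v, hv, hv1⟩ := Submodule.exists_mem_ne_zero_of_ne_bot hB1
    obtain ⟨g, hg, hgu⟩ := hq.exists_move hW (hA hu) (hB hv) (hAs.1 u hu) (hBs.1 v hv) hu1 hv1
    obtain ⟨w, hw, hw0, hvw⟩ := hq.exists_hyp hW (hB hv) (hBs.1 v hv) hv1
    set A' : Submodule K E := A.map (g : E →ₗ[K] E) with hA'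
    have hA's : Sing Φ q A' := hAs.map hg.1
    have hA'W : A' ≤ W := GW_map hg hA
    have hvA' : v ∈ A' := ⟨u, hu, hgu⟩
    have hA'n : finrank K A' = n + 1 := by
      rw [← hAn]
      exact LinearEquiv.finrank_map_eq g A
    set W' : Submodule K E := W ⊓ Φ.perp (Submodule.span K {v, w}) with hW'
    have hvv : Φ.B v v = 0 := hq.iso v (hBs.1 v hv)
    have hW'0 : W' ⊓ Φ.perp W' = ⊥ :=
      nondeg_inf hW (hB hv) hw hvv (hq.iso w hw0) hvw
    have hle : ∀ C : Submodule K E, C ≤ W → Sing Φ q C → v ∈ C →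
        C ⊓ Φ.perp (Submodule.span K {w}) ≤ W' := by
      rintro C hCW hCs hvC x ⟨hx, hx2⟩
      refine ⟨hCW hx, ?_⟩
      intro z hz
      obtain ⟨a, b, rfl⟩ := Submodule.mem_span_pair.mp hz
      rw [Φ.add_right, Φ.smul_right, Φ.smul_right, hCs.2 x hx v hvC,
        hx2 w (Submodule.mem_span_singleton_self w), mul_zero, mul_zero, add_zero]
    have hr1 := finrank_split hA's hvA' hvw
    have hr2 := finrank_split hBs hv hvw
    obtain ⟨g1, hg1, hg1A⟩ := ih W' (A' ⊓ Φ.perp (Submodule.span K {w}))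
      (B ⊓ Φ.perp (Submodule.span K {w})) hW'0 (hle A' hA'W hA's hvA') (hle B hB hBs hv)
      (hA's.mono inf_le_left) (hBs.mono inf_le_left) (by omega) (by omega)
    have hg1v : g1 v = v := by
      apply hg1.2
      intro y hy
      exact Φ.eq_zero_comm (hy.2 v (Submodule.subset_span (by simp)))
    refine ⟨g1 * g, (GW Φ q W).mul_mem (GW_mono Φ q inf_le_left hg1) hg, ?_⟩
    have h1 : A.map ((g1 * g : E ≃ₗ[K] E) : E →ₗ[K] E) = A'.map (g1 : E →ₗ[K] E) := by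
      rw [hA', ← Submodule.map_comp]
      rfl
    rw [h1, ← (split_line hA's hvA' hvw).1, Submodule.map_sup, hg1A, Submodule.map_span,
      Set.image_singleton]
    change Submodule.span K {g1 v} ⊔ _ = B
    rw [hg1v, (split_line hBs hv hvw).1]

/-- **Witt's theorem** for totally singular subspaces. -/
theorem QP.witt (hq : QP Φ q τ) {W A B : Submodule K E} (hW : W ⊓ Φ.perp W = ⊥) (hA : A ≤ W)
    (hB : B ≤ W) (hAs : Sing Φ q A) (hBs : Sing Φ q B) (hr : finrank K A = finrank K B) :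
    ∃ g ∈ GW Φ q W, A.map (g : E →ₗ[K] E) = B :=
  hq.witt_aux _ W A B hW hA hB hAs hBs hr rfl

end fin

end Vale.Agent.P180.H354.Fm
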