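import Vale.Agent.P180.H354.Fam
import Vale.Agent.P180.H393.Fr2
import Vale.Agent.P180.H386.PosC

/-!
P180 (F3): the bridge between the frames and the isometry groups of subspaces.
-/

namespace Vale.Agent.P180.H354.Fm

open Module Vale.Agent.P180.R2.H854 Vale.Agent.P180.H393.Fm
open Vale.Agent.P180.H386.Fm (UA Lv)

variable {K E : Type} [Field K] [AddCommGroup E] [Module K E] {Φ : HForm K E}
  {ι : Type} [Fintype ι] {m : ℕ}

/-- The family of a frame. -/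
theorem fam_of (F : Frame Φ ι m) : Fam Φ (Finset.range m) F.x F.y where
  xx i hi j hj := F.xx i (Finset.mem_range.mp hi) j (Finset.mem_range.mp hj)
  yy i hi j hj := F.yy i (Finset.mem_range.mp hi) j (Finset.mem_range.mp hj)
  xy i hi j hj := F.xy i (Finset.mem_range.mp hi) j (Finset.mem_range.mp hj)

/-- The frame of a family. -/
def frOf {X Y : ℕ → (ι → K) →ₗ[K] E} (h : Fam Φ (Finset.range m) X Y) : Frame Φ ι m where
  x := X
  y := Y
  xx i hi j hj := h.xx i (Finset.mem_range.mpr hi) j (Finset.mem_range.mpr hj)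
  yy i hi j hj := h.yy i (Finset.mem_range.mpr hi) j (Finset.mem_range.mpr hj)
  xy i hi j hj := h.xy i (Finset.mem_range.mpr hi) j (Finset.mem_range.mpr hj)

/-- The complement of the pairs with index at least `i`. -/
def WF (F : Frame Φ ι m) (i : ℕ) : Submodule K E := Wf Φ (Finset.Ico i m) F.x F.y

variable (F : Frame Φ ι m)

theorem famI (i : ℕ) : Fam Φ (Finset.Ico i m) F.x F.y :=
  (fam_of F).mono fun _ hj => Finset.mem_range.mpr (Finset.mem_Ico.mp hj).2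

theorem mem_WF {i : ℕ} {v : E} : v ∈ WF F i ↔
    ∀ j, i ≤ j → j < m → ∀ a, Φ.B v (F.x j a) = 0 ∧ Φ.B v (F.y j a) = 0 := by
  constructor
  · intro h j h1 h2
    exact h j (Finset.mem_Ico.mpr ⟨h1, h2⟩)
  · intro h j hj
    exact h j (Finset.mem_Ico.mp hj).1 (Finset.mem_Ico.mp hj).2

theorem WF_top {i : ℕ} (h : m ≤ i) : WF F i = ⊤ := by
  rw [eq_top_iff]
  intro v _
  rw [mem_WF]
  intro j h1 h2
  omega

theorem WF_mono {i j : ℕ} (h : i ≤ j) : WF F i ≤ WF F j := by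
  intro v hv
  rw [mem_WF] at hv ⊢
  exact fun l h1 h2 => hv l (h.trans h1) h2

theorem x_mem_WF {i : ℕ} (hi : i < m) (a : ι → K) : F.x i a ∈ WF F (i + 1) := by
  rw [mem_WF]
  intro j h1 h2 b
  exact ⟨F.xx i hi j h2 a b, by rw [F.xy i hi j h2, if_neg (by omega)]⟩

theorem y_mem_WF {i : ℕ} (hi : i < m) (a : ι → K) : F.y i a ∈ WF F (i + 1) := by
  rw [mem_WF]
  intro j h1 h2 b
  exact ⟨by rw [F.yx i hi j h2, if_neg (by omega)], F.yy i hi j h2 a b⟩

/-- the next complement -/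
theorem WF_succ {i : ℕ} (hi : i < m) :
    WF F (i + 1) ⊓ Φ.perp (LinearMap.range (F.x i) ⊔ LinearMap.range (F.y i)) = WF F i := by
  rw [Φ.perp_sup]
  ext v
  constructor
  · rintro ⟨h1, h2, h3⟩
    rw [mem_WF]
    intro j hj hjm a
    rcases Nat.eq_or_lt_of_le hj with h | h
    · subst h
      exact ⟨h2 _ ⟨a, rfl⟩, h3 _ ⟨a, rfl⟩⟩
    · exact (mem_WF F).mp h1 j h hjm a
  · intro h
    refine ⟨WF_mono F (Nat.le_succ i) h, ?_, ?_⟩
    · rintro _ ⟨a, rfl⟩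
      exact ((mem_WF F).mp h i le_rfl hi a).1
    · rintro _ ⟨a, rfl⟩
      exact ((mem_WF F).mp h i le_rfl hi a).2

variable [DecidableEq ι]

theorem WF_nondeg (i : ℕ) : WF F i ⊓ Φ.perp (WF F i) = ⊥ := (famI F i).nondeg

/-- **The isometry group of the complement.** -/
theorem GW_WF (i : ℕ) : GW Φ (fun x => Φ.B x x) (WF F i) = F.H i := by
  ext g
  constructor
  · intro h
    obtain ⟨h1, h2⟩ := (famI F i).mem_GW.mp h
    exact ⟨h1, fun j hj hjm => ⟨fun a => (h2 j (Finset.mem_Ico.mpr ⟨hj, hjm⟩) a).1,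
      fun a => (h2 j (Finset.mem_Ico.mpr ⟨hj, hjm⟩) a).2⟩⟩
  · rintro ⟨h1, h2⟩
    refine (famI F i).mem_GW.mpr ⟨h1, fun j hj a => ?_⟩
    obtain ⟨h3, h4⟩ := Finset.mem_Ico.mp hj
    exact ⟨(h2 j h3 h4).1 a, (h2 j h3 h4).2 a⟩

theorem mem_perp_range {i : ℕ} (hi : i < m) {v : E} :
    v ∈ Φ.perp (LinearMap.range (F.x i)) ↔ (F.hyp i hi).py v = 0 := by
  constructor
  · intro h
    apply hh_ext_left (θ := Φ.θ)
    intro b
    rw [Hyp.hh_py, hh_zero_left]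
    have h1 : Φ.B v ((F.hyp i hi).x b) = 0 := h _ ⟨b, rfl⟩
    rw [h1, mul_zero]
  · rintro h _ ⟨b, rfl⟩
    have h1 : Φ.B v ((F.hyp i hi).x b) = 0 := by rw [Hyp.B_x, h, hh_zero_left, mul_zero]
    exact h1

/-- **The radical.** -/
theorem UA_WF {i : ℕ} (hi : i < m) :
    UA Φ (fun x => Φ.B x x) (WF F (i + 1)) (LinearMap.range (F.x i)) = F.U i hi := by
  ext u
  constructor
  · rintro ⟨h1, h2, h3⟩
    rw [GW_WF] at h1
    refine ⟨⟨h1.1, fun a => h2 _ ⟨a, rfl⟩, fun v hv => ?_⟩, h1⟩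
    obtain ⟨a, ha⟩ := h3 v ((mem_perp_range F hi).mpr hv)
    exact ⟨a, ha.symm⟩
  · rintro ⟨⟨h1, h2, h3⟩, h4⟩
    refine ⟨by rw [GW_WF]; exact h4, ?_, fun z hz => ?_⟩
    · rintro _ ⟨a, rfl⟩
      exact h2 a
    · obtain ⟨a, ha⟩ := h3 z ((mem_perp_range F hi).mp hz)
      exact ⟨a, ha.symm⟩

omit [DecidableEq ι] in
theorem sing_of {i : ℕ} (hi : i < m) :
    Sing Φ (fun x => Φ.B x x) (LinearMap.range (F.x i)) := by
  constructor
  · rintro _ ⟨a, rfl⟩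
    exact F.xx i hi i hi a a
  · rintro _ ⟨a, rfl⟩ _ ⟨b, rfl⟩
    exact F.xx i hi i hi a b

omit [DecidableEq ι] in
theorem sing_of' {i : ℕ} (hi : i < m) :
    Sing Φ (fun x => Φ.B x x) (LinearMap.range (F.y i)) := by
  constructor
  · rintro _ ⟨a, rfl⟩
    exact F.yy i hi i hi a a
  · rintro _ ⟨a, rfl⟩ _ ⟨b, rfl⟩
    exact F.yy i hi i hi a b

theorem finrank_x {i : ℕ} (hi : i < m) : finrank K (LinearMap.range (F.x i)) = Fintype.card ι := by
  have h : Function.Injective (F.x i) := (F.hyp i hi).x_injective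
  rw [LinearMap.finrank_range_of_inj h, finrank_fintype_fun_eq_card]

theorem finrank_y {i : ℕ} (hi : i < m) : finrank K (LinearMap.range (F.y i)) = Fintype.card ι := by
  have h : Function.Injective (F.y i) := (F.hyp i hi).y_injective
  rw [LinearMap.finrank_range_of_inj h, finrank_fintype_fun_eq_card]

/-- **The level of a frame.** -/
theorem lv {i : ℕ} (hi : i < m) : Lv Φ (fun x => Φ.B x x) (WF F (i + 1))
    (LinearMap.range (F.x i)) (LinearMap.range (F.y i)) where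
  hW := WF_nondeg F (i + 1)
  hA := by
    rintro _ ⟨a, rfl⟩
    exact x_mem_WF F hi a
  hD := by
    rintro _ ⟨a, rfl⟩
    exact y_mem_WF F hi a
  sA := sing_of F hi
  sD := sing_of' F hi
  dual := by
    rw [eq_bot_iff]
    rintro _ ⟨⟨a, rfl⟩, h2⟩
    have h3 : (F.hyp i hi).py ((F.hyp i hi).y a) = 0 := (mem_perp_range F hi).mp h2
    rw [Hyp.py_y] at h3
    rw [h3, map_zero]
    exact Submodule.zero_mem _
  rk := by rw [finrank_x F hi, finrank_y F hi]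

/-! ### the general linear group and the two exchanges -/

theorem gl_mem_GW {i : ℕ} (hi : i < m) (g : (ι → K) ≃ₗ[K] (ι → K)) :
    (F.hyp i hi).gl g ∈ GW Φ (fun x => Φ.B x x) (WF F (i + 1)) := by
  rw [GW_WF]
  exact F.gl_mem_H hi g

theorem gl_mem_x {i : ℕ} (hi : i < m) (g : (ι → K) ≃ₗ[K] (ι → K)) :
    ∀ a ∈ LinearMap.range (F.x i), (F.hyp i hi).gl g a ∈ LinearMap.range (F.x i) := by
  rintro _ ⟨a, rfl⟩
  exact ⟨g a, ((F.hyp i hi).gl_x g a).symm⟩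

theorem gl_mem_y {i : ℕ} (hi : i < m) (g : (ι → K) ≃ₗ[K] (ι → K)) :
    ∀ a ∈ LinearMap.range (F.y i), (F.hyp i hi).gl g a ∈ LinearMap.range (F.y i) := by
  rintro _ ⟨a, rfl⟩
  exact ⟨_, ((F.hyp i hi).gl_y g a).symm⟩

theorem gl_perp {i : ℕ} (hi : i < m) (g : (ι → K) ≃ₗ[K] (ι → K)) :
    ∀ z ∈ Φ.perp (LinearMap.range (F.x i)),
      (F.hyp i hi).gl g z - z ∈ LinearMap.range (F.x i) := by
  intro z hz
  rw [mem_perp_range F hi] at hz
  rw [Hyp.gl_apply, hz, map_zero, sub_zero, map_zero, add_zero, add_sub_cancel_left]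
  exact ⟨_, rfl⟩

/-- the general linear group of the first space -/
theorem gl_ext {i : ℕ} (hi : i < m) (f : E ≃ₗ[K] E)
    (hf : (LinearMap.range (F.x i)).map (f : E →ₗ[K] E) = LinearMap.range (F.x i)) :
    ∃ h, ∀ a ∈ LinearMap.range (F.x i), (F.hyp i hi).gl h a = f a := by
  have h1 : ∀ a, F.x i ((F.hyp i hi).px (f (F.x i a))) = f (F.x i a) := by
    intro a
    have h2 : f (F.x i a) ∈ LinearMap.range (F.x i) := by
      rw [← hf]
      exact ⟨_, ⟨a, rfl⟩, rfl⟩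
    obtain ⟨b, hb⟩ := h2
    rw [← hb]
    have h3 : (F.hyp i hi).px ((F.hyp i hi).x b) = b := Hyp.px_x _ b
    exact congrArg (F.x i) h3
  let g : (ι → K) →ₗ[K] (ι → K) := (F.hyp i hi).px ∘ₗ (f : E →ₗ[K] E) ∘ₗ F.x i
  have hg : ∀ a, F.x i (g a) = f (F.x i a) := h1
  have hinj : Function.Injective g := by
    intro a b hab
    apply (F.hyp i hi).x_injective
    apply f.injective
    change f (F.x i a) = f (F.x i b)
    rw [← hg, ← hg, hab]
  refine ⟨LinearEquiv.ofInjectiveEndo g hinj, ?_⟩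
  rintro _ ⟨a, rfl⟩
  have h4 : (F.hyp i hi).gl (LinearEquiv.ofInjectiveEndo g hinj) ((F.hyp i hi).x a) =
    (F.hyp i hi).x (g a) := Hyp.gl_x _ _ a
  exact h4.trans (hg a)

theorem tt_mem_GW {i : ℕ} (hi : i < m) :
    (F.hyp i hi).tt ∈ GW Φ (fun x => Φ.B x x) (WF F (i + 1)) := by
  rw [GW_WF]
  exact F.tt_mem_H hi

theorem tt_map {i : ℕ} (hi : i < m) : (LinearMap.range (F.x i)).map
    ((F.hyp i hi).tt : E →ₗ[K] E) = LinearMap.range (F.y i) := by
  ext v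
  constructor
  · rintro ⟨_, ⟨a, rfl⟩, rfl⟩
    exact ⟨a, ((F.hyp i hi).tt_x a).symm⟩
  · rintro ⟨a, rfl⟩
    exact ⟨F.x i a, ⟨a, rfl⟩, (F.hyp i hi).tt_x a⟩

/-- The exchange of the pairs `i + 1` and `i`, in the form used by the Mackey formula. -/
theorem s_hs {i : ℕ} (hi : i + 1 < m) : F.s i hi ∈ GW Φ (fun x => Φ.B x x) (WF F (i + 1 + 1)) ∧
    (LinearMap.range (F.x (i + 1))).map (F.s i hi : E →ₗ[K] E) ≤
      WF F (i + 1 + 1) ⊓ Φ.perp (LinearMap.range (F.x (i + 1)) ⊔ LinearMap.range (F.y (i + 1))) ∧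
    ∀ h, F.s i hi * (F.hyp (i + 1) hi).gl h * (F.s i hi)⁻¹ ∈ F.H (i + 1) := by
  refine ⟨?_, ?_, fun h => ?_⟩
  · rw [GW_WF]
    exact F.s_mem hi
  · rw [WF_succ F hi]
    rintro _ ⟨_, ⟨a, rfl⟩, rfl⟩
    have h1 : (F.s i hi : E →ₗ[K] E) (F.x (i + 1) a) = F.x i a := F.s_x_succ hi a
    rw [h1]
    exact x_mem_WF F (Nat.lt_of_succ_lt hi) a
  · rw [F.s_inv, F.s_gl']
    exact F.gl_mem_H _ h

end Vale.Agent.P180.H354.Fm
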