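import Vale.Agent.P180.H354.Diag
import Vale.Agent.P180.H393.Ir

/-!
# Irreducible characters over an algebraically closed field of characteristic zero
-/

set_option linter.all false

namespace Vale.Agent.P180.H354

open Finset Vale.Agent.P180.R2.H471.Hc
open Vale.Agent.P180.H393 (IsIr ev exists_irr IsCh.cf)

open scoped Classical

universe u

variable {K : Type u} [Field K] [CharZero K] {H : Type} [Group H] [Fintype H]

theorem intertwining_scalar {χ : H → K} (h : IsIr K H χ) :
    ∃ (V : Type u) (_ : AddCommGroup V) (_ : Module K V) (_ : Module.Finite K V)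
      (ρ : Representation K H V), ρ.character = χ ∧ Nontrivial V ∧
      ∀ T : V →ₗ[K] V, (∀ g v, T (ρ g v) = ρ g (T v)) → ∃ c : K, ∀ v, T v = c • v := by
  obtain ⟨⟨V, i1, i2, i3, ρ, hρ⟩, hip⟩ := h
  have e : ρ.character = χ := funext hρ
  have h1 : Module.finrank K (Representation.IntertwiningMap ρ ρ) = 1 := by
    have := ip_eq_finrank ρ ρ
    rw [e, hip] at this
    exact_mod_cast this.symm
  have hid : Representation.IntertwiningMap.id ρ ≠ 0 := by
    intro h0
    have h2 : ∀ v : V, v = 0 := fun v => by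
      have := congrArg (fun f : Representation.IntertwiningMap ρ ρ => f v) h0
      exact this
    have h3 : Subsingleton (Representation.IntertwiningMap ρ ρ) := by
      refine ⟨fun a b => ?_⟩
      apply Representation.IntertwiningMap.ext
      apply LinearMap.ext
      intro v
      rw [h2 v, map_zero, map_zero]
    rw [Module.finrank_zero_of_subsingleton] at h1
    exact absurd h1 (by norm_num)
  refine ⟨V, i1, i2, i3, ρ, e, ?_, fun T hT => ?_⟩
  · by_contra hcon
    rw [not_nontrivial_iff_subsingleton] at hcon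
    apply hid
    apply Representation.IntertwiningMap.ext
    apply LinearMap.ext
    intro v
    exact Subsingleton.elim _ _
  · obtain ⟨c, hc⟩ := (finrank_eq_one_iff_of_nonzero' _ hid).1 h1
      (LinearMap.intertwiningMap_of_isIntertwiningMap ρ ρ T hT)
    refine ⟨c, fun v => ?_⟩
    have h2 := congrArg (fun f : Representation.IntertwiningMap ρ ρ => f v) hc
    exact h2.symm

theorem one_ne {χ : H → K} (h : IsIr K H χ) : χ 1 ≠ 0 := by
  obtain ⟨V, i1, i2, i3, ρ, e, hnt, -⟩ := intertwining_scalar h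
  rw [← e, Representation.char_one]
  have := Module.finrank_pos (R := K) (M := V)
  exact_mod_cast this.ne'

/-- class functions act by scalars on irreducible characters -/
theorem eigen {χ : H → K} (h : IsIr K H χ) {z : H → K} (hz : P179C.IsCF z) (y : H) :
    ∑ g, z g * χ (g * y) = omF χ z * χ y := by
  have h0 := one_ne h
  obtain ⟨V, i1, i2, i3, ρ, e, hnt, hs⟩ := intertwining_scalar h
  obtain ⟨c, hc⟩ := hs (∑ g, z g • ρ g) (fun g v => by
    rw [LinearMap.sum_apply, LinearMap.sum_apply, map_sum]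
    rw [← Equiv.sum_comp (MulAut.conj g).toEquiv]
    refine Finset.sum_congr rfl fun x _ => ?_
    have e1 : (MulAut.conj g).toEquiv x = g * x * g⁻¹ := rfl
    rw [e1, hz, LinearMap.smul_apply, LinearMap.smul_apply, map_smul]
    congr 1
    rw [← LinearMap.comp_apply, ← LinearMap.comp_apply]
    have e2 : ρ (g * x * g⁻¹) ∘ₗ ρ g = ρ g ∘ₗ ρ x := by
      have e3 : ρ (g * x * g⁻¹) * ρ g = ρ g * ρ x := by
        rw [← map_mul, ← map_mul, inv_mul_cancel_right]
      exact e3
    rw [e2])
  have hT : ∑ g, z g • ρ g = c • LinearMap.id := by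
    apply LinearMap.ext
    intro v
    rw [hc v]
    rfl
  have h1 : ∀ y, ∑ g, z g * χ (g * y) = c * χ y := by
    intro y
    have h2 := congrArg (fun f => LinearMap.trace K V (f ∘ₗ ρ y)) hT
    simp only [LinearMap.smul_comp, LinearMap.id_comp, map_smul, smul_eq_mul] at h2
    have h3 : (∑ g, z g • ρ g) ∘ₗ ρ y = ∑ g, z g • ρ (g * y) := by
      apply LinearMap.ext
      intro v
      rw [LinearMap.comp_apply, LinearMap.sum_apply, LinearMap.sum_apply]
      refine Finset.sum_congr rfl fun g _ => ?_
      rw [LinearMap.smul_apply, LinearMap.smul_apply, map_mul]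
      rfl
    rw [h3, map_sum] at h2
    simp only [map_smul, smul_eq_mul] at h2
    rw [← e]
    exact h2
  have h4 := h1 1
  simp only [mul_one] at h4
  have h5 : omF χ z = c := by
    rw [omF, h4, mul_div_cancel_right₀ _ h0]
  rw [h1, h5]

/-- the central character at a central idempotent -/
theorem om_idem {χ : H → K} (h : IsIr K H χ) {E : MonoidAlgebra K H} (hc : ∀ x, x * E = E * x)
    (hE : E * E = E) : omF χ (fun g => E.coeff g) = if ev χ E ≠ 0 then 1 else 0 := by
  have hcf : P179C.IsCF (fun g => E.coeff g) := by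
    rw [← P179C.mem_center_iff, Subalgebra.mem_center_iff]
    exact hc
  have h0 := one_ne h
  have h1 : omF χ (fun g => E.coeff g) * χ 1 = ev χ E := by
    rw [omF, div_mul_cancel₀ _ h0]
    rfl
  have h2 : ev χ E = omF χ (fun g => E.coeff g) * ev χ E := by
    conv_lhs => rw [← hE]
    unfold ev
    rw [Finset.mul_sum]
    have h3 : ∀ x : H, (E * E).coeff x * χ x = ∑ g, E.coeff g * (E.coeff (g⁻¹ * x) * χ x) := by
      intro x
      rw [P179C.coeff_mul_eq_conv]
      unfold P179C.conv
      rw [Finset.sum_mul]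
      exact Finset.sum_congr rfl fun g _ => by ring
    rw [Finset.sum_congr rfl fun x _ => h3 x, Finset.sum_comm]
    have h4 : ∀ g : H, ∑ x, E.coeff g * (E.coeff (g⁻¹ * x) * χ x) =
        ∑ y, E.coeff y * (E.coeff g * χ (g * y)) := by
      intro g
      rw [← Equiv.sum_comp (Equiv.mulLeft g)]
      refine Finset.sum_congr rfl fun y _ => ?_
      rw [Equiv.coe_mulLeft, inv_mul_cancel_left]
      ring
    rw [Finset.sum_congr rfl fun g _ => h4 g, Finset.sum_comm]
    refine Finset.sum_congr rfl fun y _ => ?_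
    rw [← Finset.mul_sum, eigen h hcf]
    ring
  split_ifs with h3
  · have h4 : (1 : K) * ev χ E = omF χ (fun g => E.coeff g) * ev χ E := by rw [one_mul]; exact h2
    exact (mul_right_cancel₀ h3 h4).symm
  · push Not at h3
    rw [h3] at h1
    rcases mul_eq_zero.1 h1 with h4 | h4
    · exact h4
    · exact absurd h4 h0

/-- a central idempotent has value `0` or `χ(1)` -/
theorem ev_idem {χ : H → K} (h : IsIr K H χ) {E : MonoidAlgebra K H} (hc : ∀ x, x * E = E * x)
    (hE : E * E = E) (h1 : ev χ E ≠ 0) : ev χ E = χ 1 := by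
  have h2 := om_idem h hc hE
  rw [if_pos h1, omF, div_eq_iff (one_ne h), one_mul] at h2
  exact h2

theorem exists_ct [IsAlgClosed K] : ∃ (n : ℕ) (χ : Fin n → H → K), CT χ ∧
    (∀ i, IsIr K H (χ i)) ∧ Function.Injective χ ∧ ∀ ψ, IsIr K H ψ → ∃ i, χ i = ψ := by
  obtain ⟨n, χ, h1, h2, h3, h4, h5⟩ := exists_irr (K := K) (H := H)
  have hir : ∀ i, IsIr K H (χ i) := fun i => ⟨h1 i, by rw [h2, if_pos rfl]⟩
  refine ⟨n, χ, ⟨fun i => IsCh.cf (h1 i), ?_, ?_, ?_⟩, hir, ?_, ?_⟩
  · intro i j
    refine (h2 i j).trans ?_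
    congr
  · intro f hf x
    exact h3 f hf x
  · intro i z hz y
    exact eigen (hir i) hz y
  · intro i j hij
    by_contra hne
    have h6 := h2 i j
    rw [if_neg hne, ← hij, (hir i).2] at h6
    exact one_ne_zero h6
  · intro ψ hψ
    choose m hm using fun i => hψ.1.ip_nat (h1 i)
    have h6 : ip ψ ψ = ∑ i, (m i : K) * m i := by
      have h8 : ∀ h : H, ψ h * ψ h⁻¹ = ∑ i, ip ψ (χ i) * (χ i h * ψ h⁻¹) := by
        intro h
        conv_lhs => rw [h3 ψ (IsCh.cf hψ.1) h]
        rw [Finset.sum_mul]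
        exact Finset.sum_congr rfl fun i _ => by ring
      rw [show ip ψ ψ = (Nat.card H : K)⁻¹ * ∑ h, ψ h * ψ h⁻¹ from rfl,
        Finset.sum_congr rfl fun h _ => h8 h, Finset.sum_comm, Finset.mul_sum]
      refine Finset.sum_congr rfl fun i _ => ?_
      rw [← Finset.mul_sum, ← mul_assoc, mul_comm _ (ip ψ (χ i)), mul_assoc, hm]
      congr 1
      rw [← hm i, ip_comm]
      rfl
    rw [hψ.2] at h6
    have h7 : ∑ i, m i * m i = 1 := by exact_mod_cast h6.symm
    have h9 : ∃ i, m i ≠ 0 := by
      by_contra hcon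
      push Not at hcon
      rw [Finset.sum_eq_zero fun i _ => by rw [hcon i, mul_zero]] at h7
      exact absurd h7 (by norm_num)
    obtain ⟨i, hi⟩ := h9
    rw [← Finset.add_sum_erase _ _ (Finset.mem_univ i)] at h7
    have h10 : 1 ≤ m i * m i := Nat.one_le_iff_ne_zero.2 (mul_ne_zero hi hi)
    have h11 : m i * m i = 1 := by omega
    have h12 : ∑ x ∈ univ.erase i, m x * m x = 0 := by omega
    have h13 : m i = 1 := Nat.eq_one_of_mul_eq_one_right h11
    refine ⟨i, ?_⟩
    funext a
    rw [h3 ψ (IsCh.cf hψ.1) a, Finset.sum_eq_single i]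
    · rw [hm, h13, Nat.cast_one, one_mul]
    · intro j _ hj
      have h14 := (Finset.sum_eq_zero_iff.1 h12) j (Finset.mem_erase.2 ⟨hj, Finset.mem_univ j⟩)
      have h15 : m j = 0 := by
        rcases Nat.mul_eq_zero.1 h14 with h | h <;> exact h
      rw [hm, h15, Nat.cast_zero, zero_mul]
    · intro h
      exact absurd (Finset.mem_univ i) h

end Vale.Agent.P180.H354
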