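import Vale.Agent.P180.H354.Gen
import Vale.Agent.P180.H354.Chi
import Vale.Agent.P180.R2.H12.SlT
import Vale.Agent.P179.H526.KDef

/-!
# The number of irreducible characters in a block does not depend on the field of characteristic zero
-/

set_option linter.all false

namespace Vale.Agent.P180.H354

open Finset Polynomial
open Vale.Agent.P180.R2.H471.Hc (IsCh ip)
open Vale.Agent.P180.H393 (IsIr ev)
open Vale.Agent.P180.R2.H954.Hc (KK toKK charZero_KK)
open P179C (ind isCF_ind lam lam_add)
open P179P (Irr)
open P179Y (InL IsHomCF)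

open scoped Classical

universe u

theorem om_sum {K : Type*} [Field K] {H : Type*} [Group H] [Fintype H]
    [Fintype (ConjClasses H)] (χ : H → K) {z : H → K} (hz : P179C.IsCF z) :
    ∑ C : ConjClasses H, z C.out * omF χ (fun g => (ind C g : K)) = omF χ z := by
  unfold omF
  simp only [mul_div_assoc', ← Finset.sum_div]
  congr 1
  simp only [Finset.mul_sum]
  rw [Finset.sum_comm]
  refine Finset.sum_congr rfl fun g _ => ?_
  conv_rhs => rw [P179C.cf_eq_sum hz g]
  rw [Finset.sum_mul]
  exact Finset.sum_congr rfl fun C _ => by ring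

theorem prod_ite_card {R ι : Type*} [CommRing R] [Fintype ι] (P : ι → Prop) (d : ι → R)
    (hd : ∀ i, d i = if P i then 1 else 0) :
    ∃ b : ℕ, ∏ i, (X - C (d i)) = (X - C (1 : R)) ^ Nat.card {i // P i} * (X - C 0) ^ b := by
  have h1 : ∀ i, (X - C (d i)) = if P i then (X - C (1 : R)) else (X - C 0) := by
    intro i
    rw [hd]
    split_ifs <;> rfl
  refine ⟨(univ.filter fun i => ¬ P i).card, ?_⟩
  rw [Finset.prod_congr rfl fun i _ => h1 i, Finset.prod_ite, Finset.prod_const,
    Finset.prod_const, Nat.card_eq_fintype_card, Fintype.card_subtype]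

theorem count_eq {k : Type*} [Field k] {a b c d : ℕ}
    (h : (X - C (1 : k)) ^ a * (X - C 0) ^ b = (X - C (1 : k)) ^ c * (X - C 0) ^ d) : a = c := by
  have key : ∀ a b : ℕ, (((X - C (1 : k)) ^ a * (X - C 0) ^ b).roots).count 1 = a := by
    intro a b
    have h0 : (X - C (1 : k)) ^ a * (X - C 0) ^ b ≠ 0 :=
      mul_ne_zero (pow_ne_zero _ (X_sub_C_ne_zero _)) (pow_ne_zero _ (X_sub_C_ne_zero _))
    rw [roots_mul h0, roots_pow, roots_pow, roots_X_sub_C, roots_X_sub_C, Multiset.count_add,
      Multiset.count_nsmul, Multiset.count_nsmul, Multiset.count_singleton_self,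
      Multiset.count_singleton, if_neg one_ne_zero, mul_one, mul_zero, add_zero]
  rw [← key a b, h, key]

section

variable {k : Type u} [Field k] [IsAlgClosed k] {p : ℕ} [Fact p.Prime] [CharP k p]

theorem toKK_injective : Function.Injective (toKK k p) := by
  unfold toKK
  exact (algebraMap (FractionRing (WittVector p k)) (KK k p)).injective.comp
    (IsFractionRing.injective (WittVector p k) (FractionRing (WittVector p k)))

variable (red : integralClosure ℤ ℂ →+* k) {G : Type} [Group G] [Fintype G]

/-- the count, in terms of the values of the central characters -/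
theorem card_lift {e : MonoidAlgebra k G} (he : e * e = e) (hec : ∀ x, x * e = e * x)
    {B : MonoidAlgebra (WittVector p k) G} (hBc : ∀ x, x * B = B * x) (hBB : B * B = B)
    (hBe : MonoidAlgebra.mapRingHom G (WittVector.constantCoeff (p := p) (R := k)) B = e) :
    Nat.card {χ : G → KK k p // IsIr (KK k p) G χ ∧
      ev χ (MonoidAlgebra.mapRingHom G (toKK k p) B) ≠ 0} =
    Nat.card {χ : Irr G // lam red χ.1 (fun g => e.coeff g) = 1} := by
  have := charZero_KK k p
  have _ := Fintype.ofFinite (ConjClasses G)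
  obtain ⟨n, χ, hct, hir, hinj, hsurj⟩ := exists_ct (K := KK k p) (H := G)
  set E := MonoidAlgebra.mapRingHom G (toKK k p) B with hE
  have hEc : ∀ x, x * E = E * x := R2.H12.Sl.mapRingHom_central _ hBc
  have hEE : E * E = E := by rw [hE, ← map_mul, hBB]
  have hcfE : P179C.IsCF (fun g => E.coeff g) := by
    rw [← P179C.mem_center_iff, Subalgebra.mem_center_iff]
    exact hEc
  have hcfe : P179C.IsCF (fun g => e.coeff g) := by
    rw [← P179C.mem_center_iff, Subalgebra.mem_center_iff]
    exact hec
  -- over `KK k p`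
  have h1 : (Az (fun g => E.coeff g)).charpoly = ∏ i : Fin n,
      (X - C (omF (χ i) (fun g => E.coeff g))) := by
    rw [charpoly_Az hct (RingHom.id (KK k p)) hcfE]
    refine Finset.prod_congr rfl fun i _ => ?_
    congr 2
    exact om_sum (χ i) hcfE
  obtain ⟨b, hb⟩ := prod_ite_card (fun i => ev (χ i) E ≠ 0)
    (fun i => omF (χ i) (fun g => E.coeff g)) fun i => (om_idem (hir i) hEc hEE).trans (by congr)
  rw [hb] at h1
  set a := Nat.card {i // ev (χ i) E ≠ 0} with ha
  -- over the Witt vectors
  have h2 : (Az (fun g => B.coeff g)).charpoly =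
      (X - C (1 : WittVector p k)) ^ a * (X - C 0) ^ b := by
    apply Polynomial.map_injective (toKK k p) toKK_injective
    rw [← Matrix.charpoly_map, Az_map, Polynomial.map_mul, Polynomial.map_pow,
      Polynomial.map_pow, Polynomial.map_sub, Polynomial.map_sub, Polynomial.map_X,
      Polynomial.map_C, Polynomial.map_C, map_one, map_zero, ← h1]
    congr 2
  -- over `k`
  have h3 : (Az (fun g => e.coeff g)).charpoly =
      (X - C (1 : k)) ^ a * (X - C 0) ^ b := by
    have h4 := congrArg (Polynomial.map (WittVector.constantCoeff (p := p) (R := k))) h2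
    rw [← Matrix.charpoly_map, Az_map, Polynomial.map_mul, Polynomial.map_pow,
      Polynomial.map_pow, Polynomial.map_sub, Polynomial.map_sub, Polynomial.map_X,
      Polynomial.map_C, Polynomial.map_C, map_one, map_zero] at h4
    rw [← h4]
    congr 2
    funext g
    rw [← hBe, MonoidAlgebra.coeff_mapRingHom]
  have hlam : ∀ ψ : Irr G, lam red ψ.1 (fun g => e.coeff g) =
      if lam red ψ.1 (fun g => e.coeff g) = 1 then 1 else 0 := by
    intro ψ
    have h5 := P179C.lam_conv red ψ.2 hcfe hcfe
    have h6 : P179C.conv (fun g => e.coeff g) (fun g => e.coeff g) = fun g => e.coeff g := by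
      funext g
      rw [← P179C.coeff_mul_eq_conv, he]
    rw [h6] at h5
    split_ifs with h7
    · exact h7
    · by_contra h8
      apply h7
      exact mul_left_cancel₀ h8 (by rw [mul_one]; exact h5.symm)
  obtain ⟨b', hb'⟩ := prod_ite_card (fun ψ : Irr G => lam red ψ.1 (fun g => e.coeff g) = 1)
    (fun ψ : Irr G => lam red ψ.1 (fun g => e.coeff g)) hlam
  rw [charpoly_red red hcfe, hb'] at h3
  rw [count_eq h3, ha]
  symm
  refine Nat.card_eq_of_bijective
    (fun i : {i : Fin n // ev (χ i) E ≠ 0} => (⟨χ i.1, hir i.1, i.2⟩ :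
      {χ : G → KK k p // IsIr (KK k p) G χ ∧ ev χ E ≠ 0})) ⟨?_, ?_⟩
  · intro i j hij
    exact Subtype.ext (hinj (congrArg Subtype.val hij))
  · rintro ⟨ψ, hψ, hψE⟩
    obtain ⟨i, rfl⟩ := hsurj ψ hψ
    exact ⟨⟨i, hψE⟩, rfl⟩

end

end Vale.Agent.P180.H354
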