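import Vale.Agent.P179.H526.YDefs

/-!
# The matrix of a class function on class functions, and its characteristic polynomial
-/

set_option linter.all false

namespace Vale.Agent.P180.H354

open Finset Matrix Polynomial P179C P179P P179A P179H524

open scoped Classical

theorem charpoly_of_diag {S : Type*} [CommRing S] {n ι : Type*} [Fintype n] [DecidableEq n]
    [Fintype ι] [DecidableEq ι] {A : Matrix n n S} {X : Matrix n ι S} {Y : Matrix ι n S}
    {d : ι → S} (hXY : X * Y = 1) (hYX : Y * X = 1) (hA : A * X = X * Matrix.diagonal d) :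
    A.charpoly = ∏ i, (Polynomial.X - Polynomial.C (d i)) := by
  have h1 : X.map (Polynomial.C : S → S[X]) * Y.map (Polynomial.C : S → S[X]) = 1 := by
    rw [← Matrix.map_mul, hXY, Matrix.map_one _ (map_zero _) (map_one _)]
  have h2 : Y.map (Polynomial.C : S → S[X]) * X.map (Polynomial.C : S → S[X]) = 1 := by
    rw [← Matrix.map_mul, hYX, Matrix.map_one _ (map_zero _) (map_one _)]
  have h3 : A.charmatrix * X.map (Polynomial.C : S → S[X]) =
      X.map (Polynomial.C : S → S[X]) *
        Matrix.diagonal (fun i => Polynomial.X - Polynomial.C (d i)) := by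
    have e1 : A.map (Polynomial.C : S → S[X]) * X.map (Polynomial.C : S → S[X]) =
        X.map (Polynomial.C : S → S[X]) * Matrix.diagonal (fun i => Polynomial.C (d i)) := by
      rw [← Matrix.map_mul, hA, Matrix.map_mul, Matrix.diagonal_map (map_zero _)]
    rw [Matrix.charmatrix, Matrix.sub_mul]
    change _ - A.map (Polynomial.C : S → S[X]) * X.map (Polynomial.C : S → S[X]) = _
    rw [e1]
    ext i j
    rw [Matrix.sub_apply, Matrix.scalar_apply, Matrix.diagonal_mul, Matrix.mul_diagonal,
      Matrix.mul_diagonal]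
    ring_nf
  have h4 : A.charmatrix = X.map (Polynomial.C : S → S[X]) *
      (Matrix.diagonal (fun i => Polynomial.X - Polynomial.C (d i)) *
        Y.map (Polynomial.C : S → S[X])) := by
    rw [← Matrix.mul_assoc, ← h3, Matrix.mul_assoc, h1, Matrix.mul_one]
  rw [Matrix.charpoly, h4, Matrix.det_comm' h1 h2, Matrix.mul_assoc, h2, Matrix.mul_one,
    Matrix.det_diagonal]

section Az

variable {G : Type*} [Group G]

theorem cf_out {R : Type*} {f : G → R} (hf : IsCF f) (g : G) :
    f (ConjClasses.mk g).out = f g := by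
  have h1 : ConjClasses.mk (ConjClasses.mk g).out = ConjClasses.mk g := Quot.out_eq _
  rw [ConjClasses.mk_eq_mk_iff_isConj] at h1
  obtain ⟨c, hc⟩ := isConj_iff.mp h1
  rw [← hf c (ConjClasses.mk g).out, hc]

variable [Fintype G]

/-- the matrix of `z` on class functions -/
noncomputable def Az {S : Type*} [CommRing S] (z : G → S) :
    Matrix (ConjClasses G) (ConjClasses G) S :=
  Matrix.of fun C D => ∑ g : G, if ConjClasses.mk (g * C.out) = D then z g else 0

theorem Az_map {S T : Type*} [CommRing S] [CommRing T] (φ : S →+* T) (z : G → S) :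
    (Az z).map φ = Az (fun g => φ (z g)) := by
  ext C D
  simp only [Az, Matrix.map_apply, Matrix.of_apply, map_sum]
  refine Finset.sum_congr rfl fun g _ => ?_
  split_ifs
  · rfl
  · exact map_zero φ

/-- the central character -/
noncomputable def omF {F : Type*} [Field F] (χ z : G → F) : F := (∑ g : G, z g * χ g) / χ 1

/-- a complete system of irreducible characters -/
structure CT {F : Type*} [Field F] {ι : Type*} [Fintype ι] (χ : ι → G → F) : Prop where
  conj : ∀ i, IsCF (χ i)
  orth : ∀ i j, (Nat.card G : F)⁻¹ * ∑ g, χ i g * χ j g⁻¹ = if i = j then 1 else 0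
  exp : ∀ f : G → F, IsCF f → ∀ x,
    f x = ∑ i, ((Nat.card G : F)⁻¹ * ∑ g, f g * χ i g⁻¹) * χ i x
  ev : ∀ i (z : G → F), IsCF z → ∀ y, ∑ g, z g * χ i (g * y) = omF (χ i) z * χ i y

variable [Fintype (ConjClasses G)]

theorem charpoly_Az {F : Type*} [Field F] {ι : Type*} [Fintype ι] {χ : ι → G → F} (h : CT χ)
    {S : Type*} [CommRing S] (φ : F →+* S) {z : G → S} (hz : IsCF z) :
    (Az z).charpoly = ∏ i, (Polynomial.X - Polynomial.C
      (∑ C : ConjClasses G, z C.out * φ (omF (χ i) (fun g => (ind C g : F))))) := by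
  let X : Matrix (ConjClasses G) ι S := Matrix.of fun C i => φ (χ i C.out)
  let Y : Matrix ι (ConjClasses G) S := Matrix.of fun i D =>
    ∑ g : G, if ConjClasses.mk g = D then φ ((Nat.card G : F)⁻¹ * χ i g⁻¹) else 0
  refine charpoly_of_diag (X := X) (Y := Y) ?_ ?_ ?_
  · ext C D
    rw [Matrix.mul_apply]
    have h1 : ∀ i, X C i * Y i D = φ (((Nat.card G : F)⁻¹ *
        ∑ g, ((ind D g : ℤ) : F) * χ i g⁻¹) * χ i C.out) := by
      intro i
      simp only [X, Y, Matrix.of_apply]
      rw [map_mul, mul_comm]
      congr 1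
      rw [Finset.mul_sum, map_sum]
      refine Finset.sum_congr rfl fun g _ => ?_
      unfold ind
      split_ifs
      · rw [Int.cast_one, one_mul]
      · rw [Int.cast_zero, zero_mul, mul_zero, map_zero]
    rw [Finset.sum_congr rfl fun i _ => h1 i, ← map_sum,
      ← h.exp (fun g => ((ind D g : ℤ) : F)) (fun g x => by
        have := isCF_ind D g x
        simp only [this]), Matrix.one_apply]
    have h2 : ConjClasses.mk C.out = C := Quot.out_eq _
    unfold ind
    rw [h2]
    split_ifs <;> simp
  · ext i j
    rw [Matrix.mul_apply]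
    simp only [X, Y, Matrix.of_apply, Finset.sum_mul]
    rw [Finset.sum_comm]
    have h1 : ∀ g : G, ∑ D : ConjClasses G,
        (if ConjClasses.mk g = D then φ ((Nat.card G : F)⁻¹ * χ i g⁻¹) else 0) * φ (χ j D.out) =
        φ ((Nat.card G : F)⁻¹ * (χ j g * χ i g⁻¹)) := by
      intro g
      rw [Finset.sum_eq_single (ConjClasses.mk g)]
      · rw [if_pos rfl, cf_out (h.conj j), ← map_mul]
        congr 1
        ring
      · intro D _ hD
        rw [if_neg (fun h' => hD h'.symm), zero_mul]
      · intro h'; exact absurd (Finset.mem_univ _) h'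
    rw [Finset.sum_congr rfl fun g _ => h1 g, ← map_sum, ← Finset.mul_sum, h.orth,
      Matrix.one_apply]
    by_cases hij : i = j
    · rw [if_pos hij, if_pos hij.symm, map_one]
    · rw [if_neg hij, if_neg (fun h' => hij h'.symm), map_zero]
  · ext C i
    rw [Matrix.mul_apply, Matrix.mul_diagonal]
    simp only [X, Az, Matrix.of_apply, Finset.sum_mul]
    rw [Finset.sum_comm]
    have h1 : ∀ g : G, ∑ D : ConjClasses G,
        (if ConjClasses.mk (g * C.out) = D then z g else 0) * φ (χ i D.out) =
        ∑ D : ConjClasses G, z D.out * φ (((ind D g : ℤ) : F) * χ i (g * C.out)) := by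
      intro g
      rw [Finset.sum_eq_single (ConjClasses.mk (g * C.out))]
      · rw [if_pos rfl, cf_out (h.conj i)]
        conv_lhs => rw [cf_eq_sum hz g]
        rw [Finset.sum_mul]
        refine Finset.sum_congr rfl fun D _ => ?_
        rw [map_mul, map_intCast, mul_assoc]
      · intro D _ hD
        rw [if_neg (fun h' => hD h'.symm), zero_mul]
      · intro h'; exact absurd (Finset.mem_univ _) h'
    rw [Finset.sum_congr rfl fun g _ => h1 g, Finset.sum_comm, Finset.mul_sum]
    refine Finset.sum_congr rfl fun D _ => ?_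
    rw [← Finset.mul_sum, ← map_sum, h.ev i (fun g => ((ind D g : ℤ) : F)) (fun g x => by
        have := isCF_ind D g x
        simp only [this]), map_mul]
    ring

end Az

end Vale.Agent.P180.H354
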