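import Vale.Agent.P180.H354.Witt
import Vale.Agent.P180.H393.Fm

/-!
P180 (F3): every totally isotropic subspace of a nondegenerate subspace `W` is the first half of a
hyperbolic pair in `W`.
-/

namespace Vale.Agent.P180.H354.Fm

open Module Vale.Agent.P180.R2.H854 Vale.Agent.P180.H393.Fm

variable {K E : Type} [Field K] [AddCommGroup E] [Module K E] {Φ : HForm K E}

/-- The isometry group of the norm `B x x`. -/
theorem GI_eq (Φ : HForm K E) : GI Φ (fun x => Φ.B x x) = IsoG Φ := by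
  ext g
  exact ⟨fun h => h.1, fun h => ⟨h, fun x => h x x⟩⟩

theorem tr_surj (hT : Φ.Tr) (x : E) : ∃ t, t + Φ.ε * Φ.θ t = Φ.B x x := by
  obtain ⟨t, -, ht⟩ := (qp_form Φ hT).surj x
  exact ⟨t, ht⟩

theorem B_sum_left {ι : Type*} (s : Finset ι) (f : ι → E) (v : E) :
    Φ.B (∑ i ∈ s, f i) v = ∑ i ∈ s, Φ.B (f i) v := by
  classical
  induction s using Finset.induction_on with
  | empty => simp [Φ.zero_left]
  | insert i s hi ih => rw [Finset.sum_insert hi, Finset.sum_insert hi, Φ.add_left, ih]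

theorem B_sum_right {ι : Type*} (s : Finset ι) (v : E) (f : ι → E) :
    Φ.B v (∑ i ∈ s, f i) = ∑ i ∈ s, Φ.B v (f i) := by
  classical
  induction s using Finset.induction_on with
  | empty => simp [Φ.zero_right]
  | insert i s hi ih => rw [Finset.sum_insert hi, Finset.sum_insert hi, Φ.add_right, ih]

section fin

variable [FiniteDimensional K E] [Finite K]

theorem sup_perp {W : Submodule K E} (hW : W ⊓ Φ.perp W = ⊥) : W ⊔ Φ.perp W = ⊤ := by
  have h := Φ.perp_inf W (Φ.perp W)
  rw [hW, Φ.perp_bot, Φ.perp_perp] at h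
  rw [sup_comm]
  exact h.symm

/-- Riesz vectors in `W`. -/
theorem exists_riesz_in {W : Submodule K E} (hW : W ⊓ Φ.perp W = ⊥) (φ : E →ₗ[K] K) :
    ∃ w ∈ W, ∀ v ∈ W, φ v = Φ.B v w := by
  obtain ⟨u, hu⟩ := Φ.exists_riesz φ
  have h1 : u ∈ W ⊔ Φ.perp W := by
    rw [sup_perp hW]
    trivial
  obtain ⟨w, hw, z, hz, rfl⟩ := Submodule.mem_sup.mp h1
  refine ⟨w, hw, fun v hv => ?_⟩
  rw [hu, Φ.add_right, Φ.mem_perp'.mp hz v hv, add_zero]

variable {ι : Type} [Fintype ι] [DecidableEq ι]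

omit [FiniteDimensional K E] [Finite K] in
theorem eq_sum' (a : ι → K) : a = ∑ i, a i • (Pi.single i 1 : ι → K) := by
  funext j
  rw [Finset.sum_apply]
  simp [Pi.single_apply]

/-- The linear map with given values on the standard basis. -/
def linOf (w : ι → E) : (ι → K) →ₗ[K] E where
  toFun b := ∑ i, b i • w i
  map_add' a b := by simp only [Pi.add_apply, add_smul, Finset.sum_add_distrib]
  map_smul' c b := by
    simp only [Pi.smul_apply, smul_eq_mul, mul_smul, Finset.smul_sum, RingHom.id_apply]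

omit [FiniteDimensional K E] [Finite K] [DecidableEq ι] in
theorem linOf_apply (w : ι → E) (b : ι → K) : linOf w b = ∑ i, b i • w i := rfl

/-- **Hyperbolic pairs**: a totally isotropic subspace of `W` has a totally isotropic dual in
`W`. -/
theorem exists_dual (hT : Φ.Tr) {W : Submodule K E} (hW : W ⊓ Φ.perp W = ⊥)
    (x : (ι → K) →ₗ[K] E) (hinj : Function.Injective x) (hxW : ∀ a, x a ∈ W)
    (hxx : ∀ a b, Φ.B (x a) (x b) = 0) : ∃ P : Hyp Φ ι, P.x = x ∧ ∀ b, P.y b ∈ W := by
  classical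
  obtain ⟨r, hr⟩ := x.exists_leftInverse_of_injective (LinearMap.ker_eq_bot.mpr hinj)
  have hr' : ∀ a, r (x a) = a := fun a => LinearMap.congr_fun hr a
  choose w hwW hw using fun i => exists_riesz_in hW ((LinearMap.proj i) ∘ₗ r)
  have hxw : ∀ a i, Φ.B (x a) (w i) = a i := by
    intro a i
    rw [← hw i (x a) (hxW a)]
    change r (x a) i = a i
    rw [hr']
  have hwx : ∀ a i, Φ.B (w i) (x a) = Φ.ε * Φ.θ (a i) := by
    intro a i
    rw [Φ.symm (x a) (w i), hxw]
  -- the Gram matrix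
  set G : ι → ι → K := fun i j => Φ.B (w i) (w j) with hG
  have hGs : ∀ i j, Φ.ε * Φ.θ (G i j) = G j i := fun i j => (Φ.symm (w i) (w j)).symm
  choose t ht using fun i => tr_surj hT (w i)
  obtain ⟨n, ⟨e⟩⟩ := Finite.exists_equiv_fin ι
  let S : ι → ι → K := fun i j => if e i < e j then -G i j else if i = j then -t i else 0
  have hS : ∀ i j, S i j + Φ.ε * Φ.θ (S j i) = -G i j := by
    intro i j
    simp only [S]
    rcases lt_trichotomy (e i) (e j) with h | h | h
    · have h1 : ¬ e j < e i := not_lt.mpr h.le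
      have h2 : ¬ j = i := fun h2 => by rw [h2] at h; exact lt_irrefl _ h
      rw [if_pos h, if_neg h1, if_neg h2, map_zero, mul_zero, add_zero]
    · have h2 : i = j := e.injective h
      subst h2
      rw [if_neg (lt_irrefl _), if_pos rfl, map_neg]
      have := ht i
      simp only [G]
      linear_combination -this
    · have h1 : ¬ e i < e j := not_lt.mpr h.le
      have h2 : ¬ i = j := fun h2 => by rw [h2] at h; exact lt_irrefl _ h
      rw [if_neg h1, if_neg h2, if_pos h, map_neg, mul_neg, hGs, zero_add]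
  -- the dual vectors
  set y : ι → E := fun i => w i + x (S i) with hy
  have hyW : ∀ i, y i ∈ W := fun i => W.add_mem (hwW i) (hxW _)
  have hxy : ∀ a i, Φ.B (x a) (y i) = a i := by
    intro a i
    rw [hy]
    beta_reduce
    rw [Φ.add_right, hxw, hxx, add_zero]
  have hyy : ∀ i j, Φ.B (y i) (y j) = 0 := by
    intro i j
    have h1 : Φ.B (y i) (y j) = G i j + Φ.ε * Φ.θ (S j i) + S i j := by
      rw [hy]
      beta_reduce
      rw [Φ.add_left, Φ.add_right, Φ.add_right, hxx, hwx, hxw, add_zero]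
    rw [h1, add_assoc, add_comm (Φ.ε * Φ.θ (S j i)), hS, add_neg_cancel]
  refine ⟨⟨x, linOf y, hxx, fun a b => ?_, fun a b => ?_⟩, rfl, fun b => ?_⟩
  · rw [linOf_apply, linOf_apply, B_sum_left]
    refine Finset.sum_eq_zero fun i _ => ?_
    rw [B_sum_right]
    refine Finset.sum_eq_zero fun j _ => ?_
    rw [Φ.smul_left, Φ.smul_right, hyy, mul_zero, mul_zero]
  · rw [linOf_apply, B_sum_right]
    unfold hh
    refine Finset.sum_congr rfl fun i _ => ?_
    rw [Φ.smul_right, hxy, mul_comm]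
  · rw [linOf_apply]
    exact W.sum_mem fun i _ => W.smul_mem _ (hyW i)

/-- Hyperbolic pairs from subspaces. -/
theorem exists_hypS (hT : Φ.Tr) {W A : Submodule K E} (hW : W ⊓ Φ.perp W = ⊥) (hA : A ≤ W)
    (hA0 : ∀ u ∈ A, ∀ v ∈ A, Φ.B u v = 0) (hr : finrank K A = Fintype.card ι) :
    ∃ P : Hyp Φ ι, LinearMap.range P.x = A ∧ ∀ b, P.y b ∈ W := by
  obtain ⟨e⟩ : Nonempty ((ι → K) ≃ₗ[K] A) := by
    apply FiniteDimensional.nonempty_linearEquiv_of_finrank_eq
    rw [Module.finrank_fintype_fun_eq_card, hr]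
  set x : (ι → K) →ₗ[K] E := A.subtype ∘ₗ (e : (ι → K) →ₗ[K] A) with hx
  have hxa : ∀ a, x a = (e a : E) := fun _ => rfl
  obtain ⟨P, hP, hPW⟩ := exists_dual hT hW x
    (Subtype.val_injective.comp e.injective)
    (fun a => hA (e a).2) (fun a b => hA0 _ (e a).2 _ (e b).2)
  refine ⟨P, ?_, hPW⟩
  rw [hP]
  ext v
  constructor
  · rintro ⟨a, rfl⟩
    exact (e a).2
  · intro hv
    obtain ⟨a, ha⟩ := e.surjective ⟨v, hv⟩
    exact ⟨a, by rw [hxa, ha]⟩

end fin

end Vale.Agent.P180.H354.Fm
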