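import Vale.Agent.P180.H354.Dual

/-!
P180 (F3): families of pairwise orthogonal hyperbolic pairs, their complements, and the existence of
maximal families with a prescribed top part.
-/

namespace Vale.Agent.P180.H354.Fm

open Module Vale.Agent.P180.R2.H854 Vale.Agent.P180.H393.Fm

variable {K E : Type} [Field K] [AddCommGroup E] [Module K E] {Φ : HForm K E}
  {ι : Type} [Fintype ι]

/-- Pairwise orthogonal hyperbolic pairs, indexed by `s`. -/
structure Fam (Φ : HForm K E) (s : Finset ℕ) (X Y : ℕ → (ι → K) →ₗ[K] E) : Prop where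
  xx : ∀ i ∈ s, ∀ j ∈ s, ∀ a b, Φ.B (X i a) (X j b) = 0
  yy : ∀ i ∈ s, ∀ j ∈ s, ∀ a b, Φ.B (Y i a) (Y j b) = 0
  xy : ∀ i ∈ s, ∀ j ∈ s, ∀ a b, Φ.B (X i a) (Y j b) = if i = j then hh Φ.θ a b else 0

namespace Fam

variable {s t : Finset ℕ} {X Y : ℕ → (ι → K) →ₗ[K] E}

theorem mono (h : Fam Φ s X Y) (hst : t ⊆ s) : Fam Φ t X Y :=
  ⟨fun i hi j hj => h.xx i (hst hi) j (hst hj), fun i hi j hj => h.yy i (hst hi) j (hst hj),
    fun i hi j hj => h.xy i (hst hi) j (hst hj)⟩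

/-- The pair with the index `i`. -/
def hyp (h : Fam Φ s X Y) {i : ℕ} (hi : i ∈ s) : Hyp Φ ι where
  x := X i
  y := Y i
  xx := h.xx i hi i hi
  yy := h.yy i hi i hi
  xy a b := by rw [h.xy i hi i hi, if_pos rfl]

theorem yx (h : Fam Φ s X Y) {i j : ℕ} (hi : i ∈ s) (hj : j ∈ s) (a b : ι → K) :
    Φ.B (Y i a) (X j b) = if i = j then Φ.ε * hh Φ.θ a b else 0 := by
  rw [Φ.symm (X j b) (Y i a), h.xy j hj i hi]
  by_cases hij : i = j
  · rw [if_pos hij, if_pos hij.symm, ← hh_symm Φ.θθ]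
  · rw [if_neg hij, if_neg (Ne.symm hij), map_zero, mul_zero]

end Fam

/-- The complement of the pairs with the indices in `s`. -/
def Wf (Φ : HForm K E) (s : Finset ℕ) (X Y : ℕ → (ι → K) →ₗ[K] E) : Submodule K E where
  carrier := {v | ∀ i ∈ s, ∀ a, Φ.B v (X i a) = 0 ∧ Φ.B v (Y i a) = 0}
  zero_mem' := fun _ _ _ => ⟨Φ.zero_left _, Φ.zero_left _⟩
  add_mem' := by
    intro v w hv hw i hi a
    obtain ⟨h1, h2⟩ := hv i hi a
    obtain ⟨h3, h4⟩ := hw i hi a
    exact ⟨by rw [Φ.add_left, h1, h3, add_zero], by rw [Φ.add_left, h2, h4, add_zero]⟩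
  smul_mem' := by
    intro c v hv i hi a
    obtain ⟨h1, h2⟩ := hv i hi a
    exact ⟨by rw [Φ.smul_left, h1, mul_zero], by rw [Φ.smul_left, h2, mul_zero]⟩

theorem mem_Wf {s : Finset ℕ} {X Y : ℕ → (ι → K) →ₗ[K] E} {v : E} :
    v ∈ Wf Φ s X Y ↔ ∀ i ∈ s, ∀ a, Φ.B v (X i a) = 0 ∧ Φ.B v (Y i a) = 0 := Iff.rfl

section dec

variable [DecidableEq ι] {s : Finset ℕ} {X Y : ℕ → (ι → K) →ₗ[K] E}

/-- Decomposition along the pairs. -/
theorem Fam.exists_dec (h : Fam Φ s X Y) (v : E) : ∃ a b : ℕ → ι → K,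
    v - ∑ i ∈ s, (X i (a i) + Y i (b i)) ∈ Wf Φ s X Y := by
  classical
  refine ⟨fun i => if hi : i ∈ s then (h.hyp hi).px v else 0,
    fun i => if hi : i ∈ s then (h.hyp hi).py v else 0, ?_⟩
  set a : ℕ → ι → K := fun i => if hi : i ∈ s then (h.hyp hi).px v else 0 with ha
  set b : ℕ → ι → K := fun i => if hi : i ∈ s then (h.hyp hi).py v else 0 with hb
  intro j hj c
  have ha' : a j = (h.hyp hj).px v := dif_pos hj
  have hb' : b j = (h.hyp hj).py v := dif_pos hj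
  constructor
  · rw [Φ.sub_left, B_sum_left]
    have h1 : ∑ i ∈ s, Φ.B (X i (a i) + Y i (b i)) (X j c) = Φ.ε * hh Φ.θ (b j) c := by
      rw [Finset.sum_eq_single j]
      · rw [Φ.add_left, h.xx j hj j hj, h.yx hj hj, if_pos rfl, zero_add]
      · intro i hi hij
        rw [Φ.add_left, h.xx i hi j hj, h.yx hi hj, if_neg hij, zero_add]
      · intro h0
        exact absurd hj h0
    have h2 : Φ.B v (X j c) = Φ.ε * hh Φ.θ ((h.hyp hj).py v) c := (h.hyp hj).B_x v c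
    rw [h1, h2, hb', sub_self]
  · rw [Φ.sub_left, B_sum_left]
    have h1 : ∑ i ∈ s, Φ.B (X i (a i) + Y i (b i)) (Y j c) = hh Φ.θ (a j) c := by
      rw [Finset.sum_eq_single j]
      · rw [Φ.add_left, h.yy j hj j hj, h.xy j hj j hj, if_pos rfl, add_zero]
      · intro i hi hij
        rw [Φ.add_left, h.yy i hi j hj, h.xy i hi j hj, if_neg hij, add_zero]
      · intro h0
        exact absurd hj h0
    have h2 : Φ.B v (Y j c) = hh Φ.θ ((h.hyp hj).px v) c := (h.hyp hj).B_y v c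
    rw [h1, h2, ha', sub_self]

omit [DecidableEq ι] in
theorem x_mem_perp {i : ℕ} (hi : i ∈ s) (a : ι → K) : X i a ∈ Φ.perp (Wf Φ s X Y) :=
  Φ.mem_perp'.mpr fun v hv => (hv i hi a).1

omit [DecidableEq ι] in
theorem y_mem_perp {i : ℕ} (hi : i ∈ s) (a : ι → K) : Y i a ∈ Φ.perp (Wf Φ s X Y) :=
  Φ.mem_perp'.mpr fun v hv => (hv i hi a).2

/-- The complement is nondegenerate. -/
theorem Fam.nondeg (h : Fam Φ s X Y) : Wf Φ s X Y ⊓ Φ.perp (Wf Φ s X Y) = ⊥ := by
  rw [eq_bot_iff]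
  rintro x ⟨hx, hx'⟩
  rw [Submodule.mem_bot]
  apply Φ.nondeg
  intro v
  obtain ⟨a, b, hw⟩ := h.exists_dec v
  have h1 : v = (v - ∑ i ∈ s, (X i (a i) + Y i (b i))) + ∑ i ∈ s, (X i (a i) + Y i (b i)) := by
    abel
  rw [h1, Φ.add_right, hx' _ hw, zero_add, B_sum_right]
  refine Finset.sum_eq_zero fun i hi => ?_
  rw [Φ.add_right, (hx i hi _).1, (hx i hi _).2, add_zero]

/-- The isometry group of the complement. -/
theorem Fam.mem_GW (h : Fam Φ s X Y) {g : E ≃ₗ[K] E} :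
    g ∈ GW Φ (fun x => Φ.B x x) (Wf Φ s X Y) ↔
      g ∈ IsoG Φ ∧ ∀ i ∈ s, ∀ a, g (X i a) = X i a ∧ g (Y i a) = Y i a := by
  constructor
  · rintro ⟨h1, h2⟩
    refine ⟨h1.1, fun i hi a => ⟨h2 _ (x_mem_perp hi a), h2 _ (y_mem_perp hi a)⟩⟩
  · rintro ⟨h1, h2⟩
    refine ⟨⟨h1, fun x => h1 x x⟩, fun x hx => ?_⟩
    obtain ⟨a, b, hw⟩ := h.exists_dec x
    have h3 : ∑ i ∈ s, (X i (a i) + Y i (b i)) ∈ Φ.perp (Wf Φ s X Y) :=
      Submodule.sum_mem _ fun i hi => Submodule.add_mem _ (x_mem_perp hi _) (y_mem_perp hi _)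
    have h4 : x - ∑ i ∈ s, (X i (a i) + Y i (b i)) ∈ Wf Φ s X Y ⊓ Φ.perp (Wf Φ s X Y) :=
      ⟨hw, Submodule.sub_mem _ hx h3⟩
    rw [h.nondeg, Submodule.mem_bot, sub_eq_zero] at h4
    rw [h4, map_sum]
    refine Finset.sum_congr rfl fun i hi => ?_
    rw [map_add, (h2 i hi _).1, (h2 i hi _).2]

end dec

section ex

variable [FiniteDimensional K E] [Finite K] [DecidableEq ι] [Nonempty ι]

/-- **Existence of maximal families with a prescribed top part.** -/
theorem exists_fam_aux (hT : Φ.Tr) : ∀ (n m : ℕ) (X Y : ℕ → (ι → K) →ₗ[K] E),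
    Fam Φ (Finset.range m) X Y → finrank K (Wf Φ (Finset.range m) X Y) ≤ n →
    ∃ (k : ℕ) (X' Y' : ℕ → (ι → K) →ₗ[K] E), Fam Φ (Finset.range (k + m)) X' Y' ∧
      (∀ j < m, X' (k + j) = X j ∧ Y' (k + j) = Y j) ∧
      ∀ S ≤ Wf Φ (Finset.range (k + m)) X' Y', (∀ u ∈ S, ∀ v ∈ S, Φ.B u v = 0) →
        finrank K S ≠ Fintype.card ι := by
  intro n
  induction n using Nat.strong_induction_on with
  | _ n ih =>
  intro m X Y h hn
  by_cases hS : ∃ S ≤ Wf Φ (Finset.range m) X Y, (∀ u ∈ S, ∀ v ∈ S, Φ.B u v = 0) ∧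
      finrank K S = Fintype.card ι
  · obtain ⟨S, hSW, hS0, hSr⟩ := hS
    obtain ⟨P, hPx, hPy⟩ := exists_hypS hT h.nondeg hSW hS0 hSr
    have hPx' : ∀ a, P.x a ∈ Wf Φ (Finset.range m) X Y := fun a =>
      hSW (by rw [← hPx]; exact ⟨a, rfl⟩)
    set X1 : ℕ → (ι → K) →ₗ[K] E := fun i => Nat.casesOn i P.x X with hX1
    set Y1 : ℕ → (ι → K) →ₗ[K] E := fun i => Nat.casesOn i P.y Y with hY1
    have hX0 : X1 0 = P.x := rfl
    have hY0 : Y1 0 = P.y := rfl
    have hXs : ∀ i, X1 (i + 1) = X i := fun _ => rfl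
    have hYs : ∀ i, Y1 (i + 1) = Y i := fun _ => rfl
    have hmem : ∀ i, i + 1 ∈ Finset.range (m + 1) → i ∈ Finset.range m := by
      intro i hi
      rw [Finset.mem_range] at hi ⊢
      omega
    have h1 : Fam Φ (Finset.range (m + 1)) X1 Y1 := by
      refine ⟨?_, ?_, ?_⟩
      · intro i hi j hj a b
        rcases i with _ | i <;> rcases j with _ | j
        · exact P.xx a b
        · exact (hPx' a j (hmem j hj) b).1
        · exact Φ.eq_zero_comm (hPx' b i (hmem i hi) a).1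
        · exact h.xx i (hmem i hi) j (hmem j hj) a b
      · intro i hi j hj a b
        rcases i with _ | i <;> rcases j with _ | j
        · exact P.yy a b
        · exact (hPy a j (hmem j hj) b).2
        · exact Φ.eq_zero_comm (hPy b i (hmem i hi) a).2
        · exact h.yy i (hmem i hi) j (hmem j hj) a b
      · intro i hi j hj a b
        rcases i with _ | i <;> rcases j with _ | j
        · rw [if_pos rfl]
          exact P.xy a b
        · rw [if_neg (by omega)]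
          exact (hPx' a j (hmem j hj) b).2
        · rw [if_neg (by omega)]
          exact Φ.eq_zero_comm (hPy b i (hmem i hi) a).1
        · rw [hXs, hYs, h.xy i (hmem i hi) j (hmem j hj)]
          by_cases hij : i = j
          · rw [if_pos hij, if_pos (by omega)]
          · rw [if_neg hij, if_neg (by omega)]
    have hle : Wf Φ (Finset.range (m + 1)) X1 Y1 ≤ Wf Φ (Finset.range m) X Y := by
      intro v hv i hi a
      have := hv (i + 1) (by rw [Finset.mem_range] at hi ⊢; omega) a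
      exact this
    have hlt : finrank K (Wf Φ (Finset.range (m + 1)) X1 Y1) <
        finrank K (Wf Φ (Finset.range m) X Y) := by
      apply Submodule.finrank_lt_finrank_of_lt
      refine lt_of_le_of_ne hle fun heq => ?_
      obtain ⟨i0⟩ := ‹Nonempty ι›
      have h2 : P.x (Pi.single i0 1) ∈ Wf Φ (Finset.range (m + 1)) X1 Y1 := by
        rw [heq]
        exact hPx' _
      have h3 := (h2 0 (by rw [Finset.mem_range]; omega) (Pi.single i0 1)).2
      have h4 : Φ.B (P.x (Pi.single i0 1)) (P.y (Pi.single i0 1)) = 0 := h3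
      rw [P.xy, hh_single_right, Pi.single_eq_same] at h4
      exact one_ne_zero h4
    obtain ⟨k, X', Y', h5, h6, h7⟩ := ih _ (lt_of_lt_of_le hlt hn) (m + 1) X1 Y1 h1 le_rfl
    have hk : k + 1 + m = k + (m + 1) := by omega
    refine ⟨k + 1, X', Y', ?_, fun j hj => ?_, ?_⟩
    · rw [hk]
      exact h5
    · have h8 := h6 (j + 1) (by omega)
      have h9 : k + 1 + j = k + (j + 1) := by omega
      rw [h9]
      exact h8
    · rw [hk]
      exact h7
  · refine ⟨0, X, Y, by rwa [zero_add], fun j _ => by rw [zero_add]; exact ⟨rfl, rfl⟩, ?_⟩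
    rw [zero_add]
    intro S hSW hS0 hSr
    exact hS ⟨S, hSW, hS0, hSr⟩

/-- **Existence of maximal families with a prescribed top part.** -/
theorem exists_fam (hT : Φ.Tr) {m : ℕ} {X Y : ℕ → (ι → K) →ₗ[K] E}
    (h : Fam Φ (Finset.range m) X Y) :
    ∃ (k : ℕ) (X' Y' : ℕ → (ι → K) →ₗ[K] E), Fam Φ (Finset.range (k + m)) X' Y' ∧
      (∀ j < m, X' (k + j) = X j ∧ Y' (k + j) = Y j) ∧
      ∀ S ≤ Wf Φ (Finset.range (k + m)) X' Y', (∀ u ∈ S, ∀ v ∈ S, Φ.B u v = 0) →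
        finrank K S ≠ Fintype.card ι :=
  exists_fam_aux hT _ m X Y h le_rfl

end ex

end Vale.Agent.P180.H354.Fm
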