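import Vale.Agent.P180.R2.H854.Form
import Vale.Agent.P180.R2.H259.Loc.QdS

/-!
P180 (F3): the full isometry groups of the nondegenerate hermitian, symmetric, alternating and
quadratic forms, in one model: `QP Φ q τ` (`q` is the norm `B x x` or a quadratic form with polar
form `B`), `GI Φ q` = the isometry group, `GW Φ q W` = the isometries which are the identity on the
orthogonal complement of `W`.
-/

namespace Vale.Agent.P180.H354.Fm

open Module Vale.Agent.P180.R2.H854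

variable {K E : Type*} [Field K] [AddCommGroup E] [Module K E]

/-- A nondegenerate form `Φ` with a norm `q`: `q (x + y) = q x + q y + τ (B x y)`. -/
structure QP (Φ : HForm K E) (q : E → K) (τ : K → K) : Prop where
  smul : ∀ (a : K) x, q (a • x) = a * Φ.θ a * q x
  add : ∀ x y, q (x + y) = q x + q y + τ (Φ.B x y)
  τ_add : ∀ a b, τ (a + b) = τ a + τ b
  τ_symm : ∀ b, τ (Φ.ε * Φ.θ b) = τ b
  τ_smul : ∀ a b, τ (a * Φ.θ a * b) = a * Φ.θ a * τ b
  surj : ∀ x, ∃ t, τ t = q x ∧ t + Φ.ε * Φ.θ t = Φ.B x x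
  iso : ∀ x, q x = 0 → Φ.B x x = 0

/-- The isometry group. -/
def GI (Φ : HForm K E) (q : E → K) : Subgroup (E ≃ₗ[K] E) where
  carrier := {g | (∀ x y, Φ.B (g x) (g y) = Φ.B x y) ∧ ∀ x, q (g x) = q x}
  one_mem' := ⟨fun _ _ => rfl, fun _ => rfl⟩
  mul_mem' := by
    rintro a b ⟨ha, ha'⟩ ⟨hb, hb'⟩
    exact ⟨fun x y => (ha (b x) (b y)).trans (hb x y), fun x => (ha' (b x)).trans (hb' x)⟩
  inv_mem' := by
    rintro a ⟨ha, ha'⟩
    refine ⟨fun x y => ?_, fun x => ?_⟩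
    · have h := ha (a⁻¹ x) (a⁻¹ y)
      have h1 : ∀ z, a (a⁻¹ z) = z := fun z => a.apply_symm_apply z
      rw [h1, h1] at h
      exact h.symm
    · have h := ha' (a⁻¹ x)
      have h1 : ∀ z, a (a⁻¹ z) = z := fun z => a.apply_symm_apply z
      rw [h1] at h
      exact h.symm

theorem mem_GI {Φ : HForm K E} {q : E → K} {g : E ≃ₗ[K] E} :
    g ∈ GI Φ q ↔ (∀ x y, Φ.B (g x) (g y) = Φ.B x y) ∧ ∀ x, q (g x) = q x := Iff.rfl

/-- The isometries which fix `perp W` pointwise. -/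
def GW (Φ : HForm K E) (q : E → K) (W : Submodule K E) : Subgroup (E ≃ₗ[K] E) where
  carrier := {g | g ∈ GI Φ q ∧ ∀ x ∈ Φ.perp W, g x = x}
  one_mem' := ⟨(GI Φ q).one_mem, fun _ _ => rfl⟩
  mul_mem' := by
    rintro a b ⟨ha, ha'⟩ ⟨hb, hb'⟩
    refine ⟨(GI Φ q).mul_mem ha hb, fun x hx => ?_⟩
    change a (b x) = x
    rw [hb' x hx, ha' x hx]
  inv_mem' := by
    rintro a ⟨ha, ha'⟩
    refine ⟨(GI Φ q).inv_mem ha, fun x hx => ?_⟩
    change a.symm x = x
    rw [LinearEquiv.symm_apply_eq]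
    exact (ha' x hx).symm

theorem mem_GW {Φ : HForm K E} {q : E → K} {W : Submodule K E} {g : E ≃ₗ[K] E} :
    g ∈ GW Φ q W ↔ g ∈ GI Φ q ∧ ∀ x ∈ Φ.perp W, g x = x := Iff.rfl

theorem GW_le (Φ : HForm K E) (q : E → K) (W : Submodule K E) : GW Φ q W ≤ GI Φ q :=
  fun _ h => h.1

theorem GW_mono (Φ : HForm K E) (q : E → K) {W W' : Submodule K E} (h : W ≤ W') :
    GW Φ q W ≤ GW Φ q W' := fun _ hg => ⟨hg.1, fun x hx => hg.2 x (Φ.perp_anti h hx)⟩

/-- Totally singular subspaces. -/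
def Sing (Φ : HForm K E) (q : E → K) (A : Submodule K E) : Prop :=
  (∀ x ∈ A, q x = 0) ∧ ∀ x ∈ A, ∀ y ∈ A, Φ.B x y = 0

theorem Sing.mono {Φ : HForm K E} {q : E → K} {A A' : Submodule K E} (h : Sing Φ q A)
    (hle : A' ≤ A) : Sing Φ q A' := ⟨fun x hx => h.1 x (hle hx), fun x hx y hy =>
  h.2 x (hle hx) y (hle hy)⟩

theorem Sing.map {Φ : HForm K E} {q : E → K} {A : Submodule K E} (h : Sing Φ q A)
    {g : E ≃ₗ[K] E} (hg : g ∈ GI Φ q) : Sing Φ q (A.map (g : E →ₗ[K] E)) := by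
  constructor
  · rintro _ ⟨x, hx, rfl⟩
    exact (hg.2 x).trans (h.1 x hx)
  · rintro _ ⟨x, hx, rfl⟩ _ ⟨y, hy, rfl⟩
    exact (hg.1 x y).trans (h.2 x hx y hy)

/-! ### The two kinds of norms -/

/-- The norm `B x x` of a form with trace values. -/
theorem qp_form (Φ : HForm K E) (h : (∃ s : K, s + Φ.θ s = 1) ∨ ∀ x, Φ.B x x = 0) :
    QP Φ (fun x => Φ.B x x) (fun b => b + Φ.ε * Φ.θ b) where
  smul a x := by
    rw [Φ.smul_left, Φ.smul_right]
    ring
  add x y := by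
    rw [Φ.add_left, Φ.add_right, Φ.add_right, Φ.symm x y]
    ring
  τ_add a b := by
    rw [map_add]
    ring
  τ_symm b := by
    rw [map_mul, Φ.θθ]
    linear_combination b * Φ.εε
  τ_smul a b := by
    rw [map_mul, map_mul, Φ.θθ]
    ring
  surj x := by
    rcases h with ⟨s, hs⟩ | h
    · refine ⟨s * Φ.B x x, ?_⟩
      have h1 : Φ.ε * Φ.θ (Φ.B x x) = Φ.B x x := (Φ.symm x x).symm
      have h2 : s * Φ.B x x + Φ.ε * Φ.θ (s * Φ.B x x) = Φ.B x x := by
        rw [map_mul]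
        calc s * Φ.B x x + Φ.ε * (Φ.θ s * Φ.θ (Φ.B x x))
            = s * Φ.B x x + Φ.θ s * (Φ.ε * Φ.θ (Φ.B x x)) := by ring
          _ = Φ.B x x := by rw [h1, ← add_mul, hs, one_mul]
      exact ⟨h2, h2⟩
    · refine ⟨0, ?_, ?_⟩
      · rw [map_zero, mul_zero, add_zero, h]
      · rw [map_zero, mul_zero, add_zero, h]
  iso x hx := hx

/-- Traces: `|K|` odd. -/
theorem trace_of_two (Φ : HForm K E) (h : (2 : K) ≠ 0) : ∃ s : K, s + Φ.θ s = 1 := by
  refine ⟨2⁻¹, ?_⟩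
  rw [map_inv₀, map_ofNat, ← two_mul, mul_inv_cancel₀ h]

/-- Traces: `θ ≠ 1`. -/
theorem trace_of_theta (Φ : HForm K E) (h : ∃ a, Φ.θ a ≠ a) : ∃ s : K, s + Φ.θ s = 1 := by
  by_cases h2 : (2 : K) = 0
  · obtain ⟨a, ha⟩ := h
    have hr : a + Φ.θ a ≠ 0 := by
      intro h0
      apply ha
      have h3 : a + a = 0 := by rw [← two_mul, h2, zero_mul]
      have h4 := h0.trans h3.symm
      exact add_left_cancel h4
    refine ⟨a / (a + Φ.θ a), ?_⟩
    rw [map_div₀, map_add, Φ.θθ, add_comm (Φ.θ a) a, ← add_div, div_self hr]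
  · exact trace_of_two Φ h2

/-- The norm of a quadratic form in characteristic two. -/
theorem qp_QF {Φ : HForm K E} {Q : E → K} (hQ : Vale.Agent.P180.R2.H259.Loc.QF Φ Q) :
    QP Φ Q (fun b => b) where
  smul a x := by rw [hQ.smul, hQ.th, sq]
  add x y := hQ.add x y
  τ_add a b := rfl
  τ_symm b := by rw [hQ.eps, hQ.th, one_mul]
  τ_smul a b := rfl
  surj x := ⟨Q x, rfl, by
    rw [hQ.eps, hQ.th, one_mul, hQ.alt, ← two_mul, hQ.two, zero_mul]⟩
  iso x _ := hQ.alt x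

/-! ### Elementary facts -/

namespace QP

variable {Φ : HForm K E} {q : E → K} {τ : K → K} (hq : QP Φ q τ)

include hq

theorem zero : q 0 = 0 := by
  have h := hq.smul 0 0
  rwa [smul_zero, zero_mul, zero_mul] at h

theorem τ_zero : τ 0 = 0 := by
  have h := hq.τ_add 0 0
  rw [add_zero] at h
  exact left_eq_add.mp h

theorem τ_neg (a : K) : τ (-a) = -τ a := by
  have h := hq.τ_add a (-a)
  rw [add_neg_cancel, hq.τ_zero] at h
  exact (neg_eq_of_add_eq_zero_right h.symm).symm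

theorem neg (x : E) : q (-x) = q x := by
  have h := hq.smul (-1) x
  rwa [neg_one_smul, map_neg, map_one, neg_one_mul, neg_neg, one_mul] at h

theorem smul_zero' {x : E} (h : q x = 0) (a : K) : q (a • x) = 0 := by
  rw [hq.smul, h, mul_zero]

end QP

section

variable {Φ : HForm K E} {q : E → K}

/-- A linear map which preserves the form and the norm is an isometry. -/
theorem exists_GI [FiniteDimensional K E] (f : E →ₗ[K] E)
    (hB : ∀ x y, Φ.B (f x) (f y) = Φ.B x y) (hf : ∀ x, q (f x) = q x) :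
    ∃ g ∈ GI Φ q, ∀ x, (g : E ≃ₗ[K] E) x = f x := by
  have hinj : Function.Injective f := by
    rw [injective_iff_map_eq_zero]
    intro x hx
    apply Φ.nondeg
    intro y
    rw [← hB, hx, Φ.zero_left]
  exact ⟨LinearEquiv.ofInjectiveEndo f hinj, ⟨hB, hf⟩, fun _ => rfl⟩

end

end Vale.Agent.P180.H354.Fm
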