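import Vale.Agent.P180.H354.Diag

/-!
# The characteristic polynomial over a field of characteristic `p`
-/

set_option linter.all false

namespace Vale.Agent.P180.H354

open Finset Matrix Polynomial P179C P179P P179A P179H524

open scoped Classical

variable {G : Type*} [Group G] [Fintype G]

theorem ct_complex : CT (fun χ : Irr G => χ.1) where
  conj χ := χ.isCF
  orth χ ψ := by
    have hG0 : (Nat.card G : ℂ) ≠ 0 := by exact_mod_cast Nat.card_pos.ne'
    rw [row_orth]
    split_ifs
    · rw [← Nat.card_eq_fintype_card, inv_mul_cancel₀ hG0]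
    · rw [mul_zero]
  exp f hf x := by
    rw [cf_expand hf x, Nat.card_eq_fintype_card]
  ev χ z hz y := sum_mul_irr χ hz y

variable [Fintype (ConjClasses G)]

/-- the characteristic polynomial of the generic class function over the algebraic integers -/
theorem charpoly_gen :
    (Az (fun g : G => (MvPolynomial.X (ConjClasses.mk g) :
      MvPolynomial (ConjClasses G) (integralClosure ℤ ℂ)))).charpoly =
    ∏ χ : Irr G, (Polynomial.X - Polynomial.C (∑ D : ConjClasses G, MvPolynomial.X D *
      MvPolynomial.C (⟨om χ.1 (ind D), isIntegral_om χ.2 (isCF_ind D)⟩ :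
        integralClosure ℤ ℂ))) := by
  set ψ : MvPolynomial (ConjClasses G) (integralClosure ℤ ℂ) →+* MvPolynomial (ConjClasses G) ℂ :=
    MvPolynomial.map (algebraMap (integralClosure ℤ ℂ) ℂ) with hψ
  have hinj : Function.Injective ψ :=
    MvPolynomial.map_injective _ Subtype.val_injective
  apply Polynomial.map_injective ψ hinj
  have hz : IsCF (fun g : G => (MvPolynomial.X (ConjClasses.mk g) :
      MvPolynomial (ConjClasses G) ℂ)) := by
    intro g x
    have : ConjClasses.mk (g * x * g⁻¹) = ConjClasses.mk x := by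
      rw [ConjClasses.mk_eq_mk_iff_isConj]
      exact (isConj_iff.mpr ⟨g, rfl⟩).symm
    simp only [this]
  rw [← Matrix.charpoly_map, Az_map]
  have h1 : (fun g : G => ψ (MvPolynomial.X (ConjClasses.mk g))) =
      fun g => MvPolynomial.X (ConjClasses.mk g) := by
    funext g
    rw [hψ, MvPolynomial.map_X]
  rw [h1, charpoly_Az ct_complex (MvPolynomial.C : ℂ →+* MvPolynomial (ConjClasses G) ℂ) hz,
    Polynomial.map_prod]
  refine Finset.prod_congr rfl fun χ _ => ?_
  rw [Polynomial.map_sub, Polynomial.map_X, Polynomial.map_C, map_sum ψ]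
  congr 2
  refine Finset.sum_congr rfl fun D _ => ?_
  have h2 : ConjClasses.mk D.out = D := Quot.out_eq _
  rw [map_mul, hψ, MvPolynomial.map_X, MvPolynomial.map_C, h2]
  congr 2
  change omF χ.1 _ = om χ.1 (ind D)
  rw [om_eq_omC]
  rfl

/-- the characteristic polynomial over a field of characteristic `p` -/
theorem charpoly_red {k : Type*} [Field k] (red : integralClosure ℤ ℂ →+* k) {z : G → k}
    (hz : IsCF z) :
    (Az z).charpoly = ∏ χ : Irr G, (Polynomial.X - Polynomial.C (lam red χ.1 z)) := by
  set e : MvPolynomial (ConjClasses G) (integralClosure ℤ ℂ) →+* k :=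
    MvPolynomial.eval₂Hom red (fun D : ConjClasses G => z D.out) with he
  have h1 := congrArg (Polynomial.map e) (charpoly_gen (G := G))
  rw [← Matrix.charpoly_map, Az_map, Polynomial.map_prod] at h1
  have h2 : (fun g : G => e (MvPolynomial.X (ConjClasses.mk g))) = z := by
    funext g
    rw [he, MvPolynomial.coe_eval₂Hom, MvPolynomial.eval₂_X, cf_out hz]
  rw [h2] at h1
  rw [h1]
  refine Finset.prod_congr rfl fun χ _ => ?_
  rw [Polynomial.map_sub, Polynomial.map_X, Polynomial.map_C, map_sum]
  congr 2
  unfold lam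
  rw [finsum_eq_sum_of_fintype]
  refine Finset.sum_congr rfl fun D _ => ?_
  rw [map_mul, he, MvPolynomial.coe_eval₂Hom, MvPolynomial.eval₂_X, MvPolynomial.eval₂_C,
    redC_of_mem red (isIntegral_om χ.2 (isCF_ind D))]

end Vale.Agent.P180.H354
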