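import Vale.Agent.P180.R2.H365.Inn

set_option linter.all false

/-!
P180 (v5, row G, helper354): automorphisms of `p`-power order of a central quotient of `SL(d, K)`
are induced by `GL(d, K)` if `p` is odd and does not divide the number of automorphisms of `K`.
-/

namespace Vale.Agent.P180.H354.GlOut

open Matrix Subgroup Module
open Vale.Agent.P180.R2.H589.Sch Vale.Agent.P180.R2.H589.Bt Vale.Agent.P180.R2.H471.Au
open Vale.Agent.P180.R2.H365.Inn

section Mat

variable {K : Type*} [Field K] {n : ℕ} {L : Type*} [Group L] {π : GS (n + 1) K →* L}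

/-- Automorphisms of `p`-power order are induced by invertible matrices. -/
theorem exists_mat [Finite K] {p i : ℕ} [hp : Fact p.Prime] (hp2 : p ≠ 2) (hn : 2 ≤ n)
    (hno : ¬ p ∣ Nat.card (K ≃+* K))
    (hπ : Function.Surjective π) (hk : π.ker ≤ center (GS (n + 1) K)) {α : MulAut L}
    (hα : α ^ (p ^ i) = 1) : ∃ (X Y : Matrix (Fin (n + 1)) (Fin (n + 1)) K) (hXY : X * Y = 1),
      ∀ g, α (π g) = π (CJ hXY g) := by
  obtain ⟨X, Y, hXY, σ, h⟩ := semi_of_odd hn hπ hk α ((hp.out.odd_of_ne_two hp2).pow) hα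
  -- remove `σ`
  have _ : Finite (K ≃+* K) := Finite.of_injective (fun f : K ≃+* K => (f : K → K))
    (fun f g h => RingEquiv.ext (congrFun h))
  have hcop : (p ^ i).Coprime (Nat.card (K ≃+* K)) :=
    Nat.Coprime.pow_left i ((Nat.Prime.coprime_iff_not_dvd hp.out).mpr hno)
  obtain ⟨N, hN1, hN2⟩ := Nat.chineseRemainder hcop 1 0
  have hαN : α ^ N = α := by
    have h1 : orderOf α ∣ p ^ i := orderOf_dvd_of_pow_eq_one hα
    have h2 : N ≡ 1 [MOD orderOf α] := hN1.of_dvd h1
    have h3 := (pow_eq_pow_iff_modEq (x := α)).mpr h2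
    rwa [pow_one] at h3
  have hσN : σ ^ N = 1 := by
    let σ' : RingAut K := RingEquiv.ofBijective σ
      ⟨σ.injective, Finite.surjective_of_injective σ.injective⟩
    have h1 : σ' ^ N = 1 := by
      obtain ⟨c, rfl⟩ := (Nat.modEq_zero_iff_dvd).mp hN2
      have h2 : σ' ^ Nat.card (K ≃+* K) = 1 := pow_card_eq_one'
      rw [pow_mul, h2, one_pow]
    have h2 : ∀ (j : ℕ) (a : K), (σ ^ j) a = (σ' ^ j) a := by
      intro j
      induction j with
      | zero => intro a; rfl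
      | succ j ih =>
        intro a
        rw [pow_succ', pow_succ']
        change σ ((σ ^ j) a) = σ' ((σ' ^ j) a)
        rw [ih]
        rfl
    ext a
    rw [h2, h1]
    rfl
  obtain ⟨X', Y', hXY', h'⟩ := iter_semi hXY h N
  rw [hαN, hσN] at h'
  refine ⟨X', Y', hXY', fun g => ?_⟩
  rw [h']
  congr 2

end Mat

section Lin

variable {K : Type*} [Field K] [Finite K] {p i : ℕ} [hp : Fact p.Prime]

/-- **Automorphisms of `p`-power order of a central quotient of `SL(d, K)` are induced by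
`GL(d, K)`**, the form with linear maps. -/
theorem exists_gl_of_noaut' (hp2 : p ≠ 2) {d : ℕ} (hd : 3 ≤ d) (hno : ¬ p ∣ Nat.card (K ≃+* K))
    {L : Type*} [Group L] {π : _root_.SpecialLinearGroup K (Fin d → K) →* L}
    (hπ : Function.Surjective π) (hk : π.ker ≤ center _) {α : MulAut L} (h : α ^ p ^ i = 1) :
    ∃ g : (Fin d → K) ≃ₗ[K] (Fin d → K), ∀ s t : _root_.SpecialLinearGroup K (Fin d → K),
      (t : (Fin d → K) →ₗ[K] (Fin d → K)) =
        (g : (Fin d → K) →ₗ[K] (Fin d → K)) ∘ₗ (s : (Fin d → K) →ₗ[K] (Fin d → K)) ∘ₗ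
          (g.symm : (Fin d → K) →ₗ[K] (Fin d → K)) → α (π s) = π t := by
  obtain ⟨n, rfl⟩ : ∃ n, d = n + 1 := ⟨d - 1, by omega⟩
  let ι := Matrix.SpecialLinearGroup.toLin'_equiv (R := K) (n := Fin (n + 1))
  let π' : GS (n + 1) K →* L := π.comp ι.toMonoidHom
  have hπ' : Function.Surjective π' := hπ.comp ι.surjective
  have hk' : π'.ker ≤ center (GS (n + 1) K) := by
    intro x hx
    have h1 : ι x ∈ center (_root_.SpecialLinearGroup K (Fin (n + 1) → K)) := hk hx
    rw [mem_center_iff] at h1 ⊢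
    intro y
    apply ι.injective
    rw [map_mul, map_mul]
    exact h1 (ι y)
  obtain ⟨X, Y, hXY, hX⟩ := exists_mat hp2 (by omega) hno hπ' hk' h
  have hYX : Y * X = 1 := mul_eq_one_comm.mp hXY
  let g : (Fin (n + 1) → K) ≃ₗ[K] (Fin (n + 1) → K) :=
    LinearEquiv.ofLinear (Matrix.toLin' X) (Matrix.toLin' Y)
      (by rw [← Matrix.toLin'_mul, hXY, Matrix.toLin'_one])
      (by rw [← Matrix.toLin'_mul, hYX, Matrix.toLin'_one])
  refine ⟨g, fun s t hst => ?_⟩
  obtain ⟨x, rfl⟩ := ι.surjective s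
  have h1 := hX x
  change α (π (ι x)) = π (ι (CJ hXY x)) at h1
  rw [h1]
  congr 1
  apply Subtype.ext
  rw [← LinearEquiv.toLinearMap_inj]
  refine Eq.trans ?_ hst.symm
  change Matrix.toLin' (X * (x : Matrix (Fin (n + 1)) (Fin (n + 1)) K) * Y) =
    Matrix.toLin' X ∘ₗ Matrix.toLin' (x : Matrix (Fin (n + 1)) (Fin (n + 1)) K) ∘ₗ Matrix.toLin' Y
  rw [Matrix.toLin'_mul, Matrix.toLin'_mul, LinearMap.comp_assoc]

end Lin

section V

variable {K V : Type*} [Field K] [Finite K] [AddCommGroup V] [Module K V] [Module.Finite K V]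
  {p i : ℕ} [hp : Fact p.Prime]

/-- **Automorphisms of `p`-power order of a central quotient of `SL(V)` are induced by `GL(V)`**,
the form with linear maps. -/
theorem exists_gl_lin (hp2 : p ≠ 2) (hd : 3 ≤ finrank K V) (hno : ¬ p ∣ Nat.card (K ≃+* K))
    {L : Type*} [Group L] {π : _root_.SpecialLinearGroup K V →* L}
    (hπ : Function.Surjective π) (hk : π.ker ≤ center _) {α : MulAut L} (h : α ^ p ^ i = 1) :
    ∃ g : V ≃ₗ[K] V, ∀ s t : _root_.SpecialLinearGroup K V,
      (t : V →ₗ[K] V) = (g : V →ₗ[K] V) ∘ₗ (s : V →ₗ[K] V) ∘ₗ (g.symm : V →ₗ[K] V) →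
        α (π s) = π t := by
  let e : (Fin (finrank K V) → K) ≃ₗ[K] V := (finBasis K V).equivFun.symm
  let ι : _root_.SpecialLinearGroup K (Fin (finrank K V) → K) ≃* _root_.SpecialLinearGroup K V :=
    SpecialLinearGroup.congr_linearEquiv e
  let π' : _root_.SpecialLinearGroup K (Fin (finrank K V) → K) →* L := π.comp ι.toMonoidHom
  have hπ' : Function.Surjective π' := hπ.comp ι.surjective
  have hk' : π'.ker ≤ center _ := by
    intro x hx
    have h1 : ι x ∈ center (_root_.SpecialLinearGroup K V) := hk hx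
    rw [mem_center_iff] at h1 ⊢
    intro y
    apply ι.injective
    rw [map_mul, map_mul]
    exact h1 (ι y)
  obtain ⟨g, hg⟩ := exists_gl_of_noaut' hp2 hd hno hπ' hk' h
  refine ⟨(e.symm.trans g).trans e, fun s t hst => ?_⟩
  obtain ⟨s', rfl⟩ := ι.surjective s
  obtain ⟨t', rfl⟩ := ι.surjective t
  refine hg s' t' ?_
  apply LinearMap.ext
  intro v
  have h1 := congrArg (fun f : V →ₗ[K] V => e.symm (f (e v))) hst
  have h2 : ∀ (x : _root_.SpecialLinearGroup K (Fin (finrank K V) → K)) (w : V),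
      ((ι x : _root_.SpecialLinearGroup K V) : V →ₗ[K] V) w = e (x (e.symm w)) := fun x w => rfl
  simp only [h2, LinearMap.comp_apply, LinearEquiv.symm_apply_apply, LinearEquiv.coe_coe,
    LinearEquiv.trans_apply, LinearEquiv.symm_trans_apply, LinearEquiv.symm_symm] at h1
  exact h1

/-- **Automorphisms of `p`-power order of a central quotient of `SL(V)` are induced by `GL(V)`.** -/
theorem exists_gl (hp2 : p ≠ 2) (hd : 3 ≤ finrank K V) (hno : ¬ p ∣ Nat.card (K ≃+* K))
    {L : Type*} [Group L] {π : _root_.SpecialLinearGroup K V →* L}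
    (hπ : Function.Surjective π) (hk : π.ker ≤ center _) {α : MulAut L} (h : α ^ p ^ i = 1) :
    ∃ g : V ≃ₗ[K] V, ∀ s t : _root_.SpecialLinearGroup K V,
      t.1 = g * s.1 * g⁻¹ → α (π s) = π t := by
  obtain ⟨g, hg⟩ := exists_gl_lin hp2 hd hno hπ hk h
  refine ⟨g, fun s t hst => hg s t ?_⟩
  apply LinearMap.ext
  intro v
  exact congrArg (fun f : V ≃ₗ[K] V => f v) hst

/-- The form of the class `OutE`. -/
theorem exists_gl_of_noaut (hd : 3 ≤ finrank K V) (hno : ¬ p ∣ 2 * Nat.card (K ≃+* K))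
    {L : Type*} [Group L] {π : _root_.SpecialLinearGroup K V →* L}
    (hπ : Function.Surjective π) (hk : π.ker ≤ center _) {α : MulAut L} (h : α ^ p ^ i = 1) :
    ∃ g : V ≃ₗ[K] V, ∀ s t : _root_.SpecialLinearGroup K V,
      (∀ v, t.1 (g v) = g (s.1 v)) → α (π s) = π t := by
  have hp2 : p ≠ 2 := by
    rintro rfl
    exact hno (Dvd.intro _ rfl)
  obtain ⟨g, hg⟩ := exists_gl hp2 hd (fun h => hno (h.trans (Dvd.intro_left _ rfl))) hπ hk h
  refine ⟨g, fun s t hst => hg s t ?_⟩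
  apply LinearEquiv.ext
  intro v
  have h1 := hst (g.symm v)
  rw [LinearEquiv.apply_symm_apply] at h1
  exact h1

/-- The form for a `p`-group of automorphisms. -/
theorem gl_of_noaut (hd : 3 ≤ finrank K V) (hno : ¬ p ∣ 2 * Nat.card (K ≃+* K))
    {L : Type*} [Group L] {π : _root_.SpecialLinearGroup K V →* L}
    (hπ : Function.Surjective π) (hk : π.ker ≤ center _) {Γ : Subgroup (MulAut L)}
    (hΓ : IsPGroup p Γ) : ∀ α ∈ Γ, ∃ g : V ≃ₗ[K] V, ∀ s t : _root_.SpecialLinearGroup K V,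
      (∀ v, t.1 (g v) = g (s.1 v)) → α (π s) = π t := by
  intro α hα
  obtain ⟨i, hi⟩ := hΓ ⟨α, hα⟩
  exact exists_gl_of_noaut (i := i) hd hno hπ hk (congrArg Subtype.val hi)

/-- The form for a `p`-element which normalises `L`. -/
theorem gl_of_mem {G : Type*} [Group G] {L : Subgroup G} (hd : 3 ≤ finrank K V)
    (hno : ¬ p ∣ 2 * Nat.card (K ≃+* K)) {π : _root_.SpecialLinearGroup K V →* L}
    (hπ : Function.Surjective π) (hk : π.ker ≤ center _) {r : G}
    (hr : r ∈ normalizer (L : Set G)) (h : r ^ p ^ i = 1) :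
    ∃ g : V ≃ₗ[K] V, ∀ s t : _root_.SpecialLinearGroup K V, t.1 = g * s.1 * g⁻¹ →
      ((π t : L) : G) = r * (π s : L) * r⁻¹ := by
  have hp2 : p ≠ 2 := by
    rintro rfl
    exact hno (Dvd.intro _ rfl)
  let α : MulAut L := L.normalizerMonoidHom ⟨r, hr⟩
  have hα : ∀ l : L, ((α l : L) : G) = r * l * r⁻¹ := fun l => rfl
  have hα1 : α ^ (p ^ i) = 1 := by
    have h1 : (⟨r, hr⟩ : normalizer (L : Set G)) ^ (p ^ i) = 1 := Subtype.ext h
    change (L.normalizerMonoidHom ⟨r, hr⟩) ^ (p ^ i) = 1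
    rw [← map_pow, h1, map_one]
  obtain ⟨g, hg⟩ := exists_gl hp2 hd (fun h => hno (h.trans (Dvd.intro_left _ rfl))) hπ hk hα1
  refine ⟨g, fun s t hst => ?_⟩
  rw [← hg s t hst, hα]

end V

end Vale.Agent.P180.H354.GlOut
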