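import Vale.Agent.P180.H354.Bri
import Vale.Agent.P180.H805.LeG

/-!
P180 (F3): every hyperbolic pair is the top part of a maximal frame.
-/

namespace Vale.Agent.P180.H354.Fm

open Module Vale.Agent.P180.R2.H854 Vale.Agent.P180.H393.Fm
open Vale.Agent.P180.H805.Hs (J inJ frameOf Hn xn yn Hn_eq_of ext_inJ)

variable {K E : Type} [Field K] [AddCommGroup E] [Module K E] {Φ : HForm K E}
  {ι : Type} [Fintype ι] {m : ℕ}

/-- The group of the complement of the top part. -/
theorem H_eq_Fx [DecidableEq ι] (F : Frame Φ ι m) (i n : ℕ) (h : i + n = m) :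
    F.H i = (Hn F i n h.le).Fx := by
  ext g
  constructor
  · rintro ⟨h1, h2⟩
    have hx : (g : E →ₗ[K] E) ∘ₗ (Hn F i n h.le).x = (Hn F i n h.le).x := by
      refine ext_inJ fun j hj a => ?_
      have e1 : (Hn F i n h.le).x (inJ K ι n j a) = F.x (i + j) a :=
        Vale.Agent.P180.H805.Hs.xn_inJ F i n j hj a
      rw [LinearMap.comp_apply, e1]
      exact (h2 (i + j) (Nat.le_add_right i j) (by omega)).1 a
    have hy : (g : E →ₗ[K] E) ∘ₗ (Hn F i n h.le).y = (Hn F i n h.le).y := by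
      refine ext_inJ fun j hj a => ?_
      have e1 : (Hn F i n h.le).y (inJ K ι n j a) = F.y (i + j) a :=
        Vale.Agent.P180.H805.Hs.yn_inJ F i n j hj a
      rw [LinearMap.comp_apply, e1]
      exact (h2 (i + j) (Nat.le_add_right i j) (by omega)).2 a
    exact ⟨h1, fun a => LinearMap.congr_fun hx a, fun a => LinearMap.congr_fun hy a⟩
  · rintro ⟨h1, h2, h3⟩
    refine ⟨h1, fun l hl hlm => ?_⟩
    obtain ⟨j, rfl⟩ := Nat.exists_eq_add_of_le hl
    have hj : j < n := by omega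
    refine ⟨fun a => ?_, fun a => ?_⟩
    · have e1 : (Hn F i n h.le).x (inJ K ι n j a) = F.x (i + j) a :=
        Vale.Agent.P180.H805.Hs.xn_inJ F i n j hj a
      rw [← e1]
      exact h2 _
    · have e1 : (Hn F i n h.le).y (inJ K ι n j a) = F.y (i + j) a :=
        Vale.Agent.P180.H805.Hs.yn_inJ F i n j hj a
      rw [← e1]
      exact h3 _

variable [FiniteDimensional K E] [Finite K] [DecidableEq ι] [Nonempty ι]

/-- **(Ld)**: every hyperbolic pair is the top part of a maximal frame. -/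
theorem exists_frame (hT : Φ.Tr) {N : ℕ} (P : Hyp Φ (J ι N)) :
    ∃ (k : ℕ) (F : Frame Φ ι (k + N)), Hn F k N le_rfl = P ∧ F.H k = P.Fx ∧
      (∀ S ≤ WF F 0, (∀ u ∈ S, ∀ v ∈ S, Φ.B u v = 0) → finrank K S ≠ Fintype.card ι) := by
  obtain ⟨k, X, Y, h1, h2, h3⟩ := exists_fam hT (fam_of (frameOf P))
  have hx : ∀ j < N, X (k + j) = (frameOf P).x j := fun j hj => (h2 j hj).1
  have hy : ∀ j < N, Y (k + j) = (frameOf P).y j := fun j hj => (h2 j hj).2
  have hH : Hn (frOf h1) k N le_rfl = P := by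
    refine Hn_eq_of _ _ _ _ _ (fun j hj a => ?_) (fun j hj a => ?_)
    · change X (k + j) a = _
      rw [hx j hj]
      rfl
    · change Y (k + j) a = _
      rw [hy j hj]
      rfl
  refine ⟨k, frOf h1, hH, ?_, ?_⟩
  · rw [H_eq_Fx (frOf h1) k N rfl, hH]
  · intro S hS
    refine h3 S (hS.trans ?_)
    unfold WF
    rw [← Finset.range_eq_Ico]
    exact le_rfl

/-- A maximal frame. -/
theorem exists_frame_zero (Φ : HForm K E) (hT : Φ.Tr) : ∃ (m : ℕ) (F : Frame Φ ι m),
    ∀ S ≤ WF F 0, (∀ u ∈ S, ∀ v ∈ S, Φ.B u v = 0) → finrank K S ≠ Fintype.card ι := by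
  obtain ⟨k, X, Y, h1, -, h3⟩ := exists_fam (Φ := Φ) (ι := ι) hT (m := 0) (X := fun _ => 0)
    (Y := fun _ => 0) ⟨fun i hi => by simp at hi, fun i hi => by simp at hi,
      fun i hi => by simp at hi⟩
  refine ⟨k + 0, frOf h1, fun S hS => h3 S (hS.trans ?_)⟩
  unfold WF
  rw [← Finset.range_eq_Ico]
  exact le_rfl

end Vale.Agent.P180.H354.Fm
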