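import Mathlib

/-!
P180: the order of an abelian `p`-subgroup `S` of a general linear group which is maximal in its
enveloping algebra: `|S| ≤ |S ∩ SL|²` if `S ∩ SL` is not scalar.
-/

namespace Vale.Agent.P180.H354.NumS

open Module

section Z

variable {K : Type*} [Field K] [Finite K] {p : ℕ} [hp : Fact p.Prime]

/-- The `p`-part of the units. -/
theorem exists_Z : ∃ b : ℕ, Nat.card (rootsOfUnity (p ^ b) K) = p ^ b ∧
    (∃ ζ : Kˣ, orderOf ζ = p ^ b) ∧ ∀ z : Kˣ, (∃ n, z ^ p ^ n = 1) → z ^ p ^ b = 1 := by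
  set N := Nat.card Kˣ with hN
  have hN0 : N ≠ 0 := Nat.card_pos.ne'
  set b := N.factorization p with hb
  have hdvd : p ^ b ∣ N := Nat.ordProj_dvd N p
  obtain ⟨g, hg⟩ := IsCyclic.exists_ofOrder_eq_natCard (α := Kˣ)
  have hpb : p ^ b ≠ 0 := pow_ne_zero _ hp.out.ne_zero
  have ho : orderOf (g ^ (N / p ^ b)) = p ^ b := by
    have h1 : N / p ^ b ∣ orderOf g := by
      rw [hg]
      exact Nat.div_dvd_of_dvd hdvd
    rw [orderOf_pow_of_dvd _ h1, hg, Nat.div_div_self hdvd hN0]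
    exact (Nat.div_pos (Nat.le_of_dvd (Nat.pos_of_ne_zero hN0) hdvd)
      (Nat.pos_of_ne_zero hpb)).ne'
  have hprim : IsPrimitiveRoot ((g ^ (N / p ^ b) : Kˣ) : K) (p ^ b) := by
    rw [IsPrimitiveRoot.coe_units_iff]
    have := IsPrimitiveRoot.orderOf (g ^ (N / p ^ b))
    rwa [ho] at this
  have : NeZero (p ^ b) := ⟨hpb⟩
  refine ⟨b, hprim.card_rootsOfUnity, ⟨_, ho⟩, fun z hz => ?_⟩
  obtain ⟨n, hn⟩ := hz
  obtain ⟨j, -, hj⟩ := (Nat.dvd_prime_pow hp.out).mp (orderOf_dvd_of_pow_eq_one hn)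
  have h2 : p ^ j ∣ N := by
    rw [← hj]
    exact orderOf_dvd_natCard z
  have h3 : j ≤ b := (hp.out.pow_dvd_iff_le_factorization hN0).mp h2
  rw [← orderOf_dvd_iff_pow_eq_one, hj]
  exact pow_dvd_pow p h3

end Z

variable {K V : Type*} [Field K] [Finite K] [AddCommGroup V] [Module K V] [Finite V]
  {p : ℕ} [hp : Fact p.Prime]

/-- the enveloping algebra -/
def Env (S : Subgroup (V ≃ₗ[K] V)) : Subalgebra K (Module.End K V) :=
  Algebra.adjoin K ((S.toSubmonoid.map LinearEquiv.automorphismGroup.toLinearMapMonoidHom :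
    Submonoid (Module.End K V)) : Set (Module.End K V))

omit [Finite K] [Finite V] in
theorem mem_Env_of {S : Subgroup (V ≃ₗ[K] V)} {x : V ≃ₗ[K] V} (hx : x ∈ S) :
    (x : V →ₗ[K] V) ∈ Env S := Algebra.subset_adjoin ⟨x, hx, rfl⟩

omit [Finite K] [Finite V] in
theorem mem_span_of_Env {S : Subgroup (V ≃ₗ[K] V)} {x : Module.End K V} (hx : x ∈ Env S) :
    x ∈ Submodule.span K (Set.range fun s : S => ((s : V ≃ₗ[K] V) : V →ₗ[K] V)) := by
  have h1 : x ∈ Subalgebra.toSubmodule (Env S) := hx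
  unfold Env at h1
  rw [Algebra.adjoin_eq_span, Submonoid.closure_eq] at h1
  refine Submodule.span_mono ?_ h1
  rintro _ ⟨y, hy, rfl⟩
  exact ⟨⟨y, hy⟩, rfl⟩

omit [Finite K] [Finite V] in
theorem env_comm {S : Subgroup (V ≃ₗ[K] V)} (hab : ∀ x ∈ S, ∀ y ∈ S, x * y = y * x)
    {x y : Module.End K V} (hx : x ∈ Env S) (hy : y ∈ Env S) : Commute x y := by
  refine Algebra.commute_of_mem_adjoin_of_forall_mem_commute hy ?_
  rintro _ ⟨b, hb, rfl⟩
  refine (Algebra.commute_of_mem_adjoin_of_forall_mem_commute hx ?_).symm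
  rintro _ ⟨a, ha, rfl⟩
  have h := hab b hb a ha
  exact congrArg (LinearEquiv.automorphismGroup.toLinearMapMonoidHom (R := K) (M := V)) h

omit [Finite V] in
/-- `x ^ Q = x` on the enveloping algebra -/
theorem exists_pow_eq [Nontrivial V] {S : Subgroup (V ≃ₗ[K] V)} [Finite S] (hS : IsPGroup p S)
    (hpK : ¬ p ∣ Nat.card K) (hab : ∀ x ∈ S, ∀ y ∈ S, x * y = y * x) :
    ∃ Q0 : ℕ, 2 ≤ Q0 ∧ ∀ x ∈ Env S, x ^ Q0 = x := by
  have := Fintype.ofFinite K
  obtain ⟨r, hr⟩ := CharP.exists K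
  have hrp : Fact r.Prime := ⟨CharP.char_is_prime K r⟩
  obtain ⟨⟨m, hm⟩, -, hcard⟩ := FiniteField.card K r
  rw [PNat.mk_coe] at hcard
  have hcp : Nat.Coprime (Nat.card K) (Nat.card S) := by
    obtain ⟨n, hn⟩ := IsPGroup.iff_card.mp hS
    rw [hn]
    exact Nat.Coprime.pow_right _ ((Nat.Prime.coprime_iff_not_dvd hp.out).mpr hpK).symm
  set φ := (Nat.card S).totient with hφ
  have hφ0 : 0 < φ := Nat.totient_pos.mpr Nat.card_pos
  have hmod : Nat.card K ^ φ ≡ 1 [MOD Nat.card S] := Nat.ModEq.pow_totient hcp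
  have hK2 : 2 ≤ Nat.card K := by
    have : 1 < Nat.card K := Finite.one_lt_card
    omega
  have hQ2 : 2 ≤ Nat.card K ^ φ := by
    calc 2 ≤ Nat.card K := hK2
      _ = Nat.card K ^ 1 := (pow_one _).symm
      _ ≤ Nat.card K ^ φ := Nat.pow_le_pow_right (by omega) hφ0
  have hchar : CharP (Module.End K V) r :=
    charP_of_injective_algebraMap (algebraMap K (Module.End K V)).injective r
  refine ⟨Nat.card K ^ φ, hQ2, fun x hx => ?_⟩
  have hQr : Nat.card K ^ φ = r ^ (m * φ) := by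
    rw [Nat.card_eq_fintype_card, hcard, pow_mul]
  have key : ∀ x ∈ Submodule.span K (Set.range fun s : S => ((s : V ≃ₗ[K] V) : V →ₗ[K] V)),
      (x ∈ Env S ∧ x ^ Nat.card K ^ φ = x) := by
    intro x hx
    induction hx using Submodule.span_induction with
    | mem y hy =>
      obtain ⟨s, rfl⟩ := hy
      refine ⟨mem_Env_of s.2, ?_⟩
      have h1 : (s : V ≃ₗ[K] V) ^ Nat.card K ^ φ = s := by
        have h2 : (s : S) ^ Nat.card K ^ φ = s := by
          have h3 : s ^ Nat.card K ^ φ = s ^ 1 := by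
            rw [pow_eq_pow_iff_modEq]
            exact hmod.of_dvd (orderOf_dvd_natCard s)
          rwa [pow_one] at h3
        exact congrArg Subtype.val h2
      have h4 := congrArg (LinearEquiv.automorphismGroup.toLinearMapMonoidHom (R := K) (M := V)) h1
      rw [map_pow] at h4
      exact h4
    | zero =>
      refine ⟨Subalgebra.zero_mem _, ?_⟩
      rw [zero_pow]
      omega
    | add y z _ _ ihy ihz =>
      refine ⟨Subalgebra.add_mem _ ihy.1 ihz.1, ?_⟩
      have h5 := add_pow_char_pow_of_commute r (m * φ) (env_comm hab ihy.1 ihz.1)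
      rw [← hQr, ihy.2, ihz.2] at h5
      exact h5
    | smul c y _ ih =>
      refine ⟨Subalgebra.smul_mem _ ih.1 c, ?_⟩
      have h6 : ∀ n : ℕ, c ^ Nat.card K ^ n = c := by
        intro n
        induction n with
        | zero => rw [pow_zero, pow_one]
        | succ n ihn =>
          rw [pow_succ, pow_mul, ihn, Nat.card_eq_fintype_card]
          exact FiniteField.pow_card c
      rw [smul_pow, h6, ih.2]
  exact (key x (mem_span_of_Env hx)).2

omit [Finite K] [Finite V] in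
/-- the group of the `p`-elements of the enveloping algebra -/
theorem mem_of_max {S : Subgroup (V ≃ₗ[K] V)} (hS : IsPGroup p S)
    (hab : ∀ x ∈ S, ∀ y ∈ S, x * y = y * x)
    (hmax : ∀ P : Subgroup (V ≃ₗ[K] V), S ≤ P → IsPGroup p P → (∀ x ∈ P, (x : V →ₗ[K] V) ∈
      Submodule.span K (Set.range fun s : S => ((s : V ≃ₗ[K] V) : V →ₗ[K] V))) → P = S)
    {x : V ≃ₗ[K] V} (hx : (x : V →ₗ[K] V) ∈ Env S) {n : ℕ} (hn : x ^ p ^ n = 1) : x ∈ S := by
  have hmul : ∀ a b : V ≃ₗ[K] V, ((a * b : V ≃ₗ[K] V) : V →ₗ[K] V) =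
      (a : V →ₗ[K] V) * (b : V →ₗ[K] V) := fun _ _ => rfl
  have hpow : ∀ (a : V ≃ₗ[K] V) (n : ℕ), ((a ^ n : V ≃ₗ[K] V) : V →ₗ[K] V) =
      (a : V →ₗ[K] V) ^ n := fun a n =>
    map_pow (LinearEquiv.automorphismGroup.toLinearMapMonoidHom (R := K) (M := V)) a n
  have hinj : ∀ a b : V ≃ₗ[K] V, (a : V →ₗ[K] V) = (b : V →ₗ[K] V) → a = b := by
    intro a b h
    ext v
    exact LinearMap.congr_fun h v
  have hc : ∀ a b : V ≃ₗ[K] V, (a : V →ₗ[K] V) ∈ Env S → (b : V →ₗ[K] V) ∈ Env S →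
      a * b = b * a := fun a b ha hb => hinj _ _ (env_comm hab ha hb)
  let P : Subgroup (V ≃ₗ[K] V) :=
    { carrier := {y | (y : V →ₗ[K] V) ∈ Env S ∧ ∃ n : ℕ, y ^ p ^ n = 1}
      one_mem' := ⟨(Env S).one_mem, 0, one_pow _⟩
      mul_mem' := by
        rintro a b ⟨ha, na, hna⟩ ⟨hb, nb, hnb⟩
        refine ⟨(Env S).mul_mem ha hb, na + nb, ?_⟩
        rw [(show Commute a b from hc a b ha hb).mul_pow, pow_add, pow_mul, hna, one_pow,
          mul_comm (p ^ na), pow_mul, hnb, one_pow, one_mul]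
      inv_mem' := by
        rintro a ⟨ha, n, hna⟩
        refine ⟨?_, n, by rw [inv_pow, hna, inv_one]⟩
        have h1 : a⁻¹ = a ^ (p ^ n - 1) := by
          rw [inv_eq_iff_mul_eq_one, ← pow_succ', Nat.sub_add_cancel
            (Nat.one_le_iff_ne_zero.mpr (pow_ne_zero _ hp.out.ne_zero)), hna]
        rw [h1, hpow]
        exact Subalgebra.pow_mem _ ha _ }
  have hSP : S ≤ P := by
    intro s hs
    obtain ⟨n, hn⟩ := hS ⟨s, hs⟩
    exact ⟨mem_Env_of hs, n, congrArg Subtype.val hn⟩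
  have hPp : IsPGroup p P := by
    rintro ⟨y, hy, n, hn⟩
    exact ⟨n, Subtype.ext hn⟩
  have := hmax P hSP hPp fun y hy => mem_span_of_Env hy.1
  rw [← this]
  exact ⟨hx, n, hn⟩

/-- the units `ζ e + η (1 - e)` -/
def idU {e : Module.End K V} (he : e * e = e) : Kˣ × Kˣ →* (Module.End K V)ˣ where
  toFun z := ⟨(z.1 : K) • e + (z.2 : K) • (1 - e), ((z.1⁻¹ : Kˣ) : K) • e + ((z.2⁻¹ : Kˣ) : K) • (1 - e),
    by
      have h1 : e * (1 - e) = 0 := by rw [mul_sub, mul_one, he, sub_self]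
      have h2 : (1 - e) * e = 0 := by rw [sub_mul, one_mul, he, sub_self]
      have h3 : (1 - e) * (1 - e) = 1 - e := by rw [mul_sub, mul_one, h2, sub_zero]
      rw [add_mul, mul_add, mul_add, smul_mul_smul_comm, smul_mul_smul_comm, smul_mul_smul_comm,
        smul_mul_smul_comm, h1, h2, h3, he, Units.mul_inv, Units.mul_inv, smul_zero, smul_zero]
      simp,
    by
      have h1 : e * (1 - e) = 0 := by rw [mul_sub, mul_one, he, sub_self]
      have h2 : (1 - e) * e = 0 := by rw [sub_mul, one_mul, he, sub_self]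
      have h3 : (1 - e) * (1 - e) = 1 - e := by rw [mul_sub, mul_one, h2, sub_zero]
      rw [add_mul, mul_add, mul_add, smul_mul_smul_comm, smul_mul_smul_comm, smul_mul_smul_comm,
        smul_mul_smul_comm, h1, h2, h3, he, Units.inv_mul, Units.inv_mul, smul_zero, smul_zero]
      simp⟩
  map_one' := by
    ext1
    change ((1 : Kˣ) : K) • e + ((1 : Kˣ) : K) • (1 - e) = 1
    rw [Units.val_one, one_smul, one_smul, add_sub_cancel]
  map_mul' z w := by
    ext1
    have h1 : e * (1 - e) = 0 := by rw [mul_sub, mul_one, he, sub_self]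
    have h2 : (1 - e) * e = 0 := by rw [sub_mul, one_mul, he, sub_self]
    have h3 : (1 - e) * (1 - e) = 1 - e := by rw [mul_sub, mul_one, h2, sub_zero]
    change ((z.1 * w.1 : Kˣ) : K) • e + ((z.2 * w.2 : Kˣ) : K) • (1 - e) =
      ((z.1 : K) • e + (z.2 : K) • (1 - e)) * ((w.1 : K) • e + (w.2 : K) • (1 - e))
    rw [add_mul, mul_add, mul_add, smul_mul_smul_comm, smul_mul_smul_comm, smul_mul_smul_comm,
      smul_mul_smul_comm, h1, h2, h3, he, smul_zero, smul_zero, Units.val_mul, Units.val_mul,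
      add_zero, zero_add]

omit [Finite K] [Finite V] in
theorem idU_val {e : Module.End K V} (he : e * e = e) (z : Kˣ × Kˣ) :
    ((idU he z : (Module.End K V)ˣ) : Module.End K V) = (z.1 : K) • e + (z.2 : K) • (1 - e) := rfl

omit [Finite K] [Finite V] in
theorem idU_injective {e : Module.End K V} (he : e * e = e) (h0 : e ≠ 0) (h1 : e ≠ 1) :
    Function.Injective (idU he) := by
  intro z w h
  have h2 : (z.1 : K) • e + (z.2 : K) • (1 - e) = (w.1 : K) • e + (w.2 : K) • (1 - e) :=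
    congrArg Units.val h
  have e1 : (1 - e) * e = 0 := by rw [sub_mul, one_mul, he, sub_self]
  have e2 : e * (1 - e) = 0 := by rw [mul_sub, mul_one, he, sub_self]
  have e3 : (1 - e) * (1 - e) = 1 - e := by rw [mul_sub, mul_one, e1, sub_zero]
  have h3 := congrArg (fun x => x * e) h2
  have h4 := congrArg (fun x => x * (1 - e)) h2
  simp only [add_mul, smul_mul_assoc, he, e1, e2, e3, smul_zero, add_zero, zero_add] at h3 h4
  refine Prod.ext (Units.ext ?_) (Units.ext ?_)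
  · exact smul_left_injective K h0 h3
  · exact smul_left_injective K (sub_ne_zero.mpr (Ne.symm h1)) h4

omit [Finite K] in
/-- `|S| ≤ |S ∩ SL| |Z|` -/
theorem card_le_mul {b : ℕ} (hb : Nat.card (rootsOfUnity (p ^ b) K) = p ^ b)
    (hZ : ∀ z : Kˣ, (∃ n, z ^ p ^ n = 1) → z ^ p ^ b = 1)
    {S : Subgroup (V ≃ₗ[K] V)} (hS : IsPGroup p S) :
    Nat.card S ≤ Nat.card (S ⊓ (LinearEquiv.det : (V ≃ₗ[K] V) →* Kˣ).ker : Subgroup _) *
      p ^ b := by
  have hfin : Finite (V ≃ₗ[K] V) :=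
    Finite.of_injective (fun g : V ≃ₗ[K] V => (g : V → V)) DFunLike.coe_injective
  set T : Subgroup (V ≃ₗ[K] V) := S ⊓ (LinearEquiv.det : (V ≃ₗ[K] V) →* Kˣ).ker with hT
  set d : S →* Kˣ := (LinearEquiv.det : (V ≃ₗ[K] V) →* Kˣ).comp S.subtype with hd
  have e1 : Nat.card d.ker * Nat.card d.range = Nat.card S := by
    rw [← Subgroup.index_ker, Subgroup.card_mul_index]
  have e2 : Nat.card d.ker = Nat.card T := by
    have e3 : d.ker = T.subgroupOf S := by
      ext x
      rw [MonoidHom.mem_ker, Subgroup.mem_subgroupOf, hT]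
      exact ⟨fun h => ⟨x.2, h⟩, fun h => h.2⟩
    rw [e3]
    exact Nat.card_congr (Subgroup.subgroupOfEquivOfLe inf_le_left).toEquiv
  have e4 : Nat.card d.range ≤ p ^ b := by
    rw [← hb]
    refine Subgroup.card_le_of_le ?_
    rintro _ ⟨x, rfl⟩
    rw [mem_rootsOfUnity]
    apply hZ
    obtain ⟨n, hn⟩ := hS x
    exact ⟨n, by rw [← map_pow, hn, map_one]⟩
  rw [← e1, e2]
  exact Nat.mul_le_mul_left _ e4

omit [Finite K] in
/-- `|Z| ≤ |S ∩ SL|` if the enveloping algebra has a proper idempotent -/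
theorem le_of_idem {b : ℕ} (hb : Nat.card (rootsOfUnity (p ^ b) K) = p ^ b)
    (hZ : ∀ z : Kˣ, (∃ n, z ^ p ^ n = 1) → z ^ p ^ b = 1)
    {S : Subgroup (V ≃ₗ[K] V)} (hS : IsPGroup p S)
    (hab : ∀ x ∈ S, ∀ y ∈ S, x * y = y * x)
    (hmax : ∀ P : Subgroup (V ≃ₗ[K] V), S ≤ P → IsPGroup p P → (∀ x ∈ P, (x : V →ₗ[K] V) ∈
      Submodule.span K (Set.range fun s : S => ((s : V ≃ₗ[K] V) : V →ₗ[K] V))) → P = S)
    {e : Module.End K V} (heA : e ∈ Env S) (he : e * e = e) (h0 : e ≠ 0) (h1' : e ≠ 1) :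
    p ^ b ≤ Nat.card (S ⊓ (LinearEquiv.det : (V ≃ₗ[K] V) →* Kˣ).ker : Subgroup _) := by
  have hfin : Finite (V ≃ₗ[K] V) :=
    Finite.of_injective (fun g : V ≃ₗ[K] V => (g : V → V)) DFunLike.coe_injective
  have hpb : 0 < p ^ b := pow_pos hp.out.pos b
  set T : Subgroup (V ≃ₗ[K] V) := S ⊓ (LinearEquiv.det : (V ≃ₗ[K] V) →* Kˣ).ker with hT
  set f : Kˣ × Kˣ →* (V ≃ₗ[K] V) :=
    (LinearMap.GeneralLinearGroup.generalLinearEquiv K V).toMonoidHom.comp (idU he) with hf
  have hfi : Function.Injective f :=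
    (LinearMap.GeneralLinearGroup.generalLinearEquiv K V).injective.comp
      (idU_injective he h0 h1')
  set Z : Subgroup (Kˣ × Kˣ) := (rootsOfUnity (p ^ b) K).prod (rootsOfUnity (p ^ b) K) with hZd
  have hZc : Nat.card Z = p ^ b * p ^ b := by
    rw [hZd, Nat.card_congr (Subgroup.prodEquiv _ _).toEquiv, Nat.card_prod, hb]
  have hfS : ∀ z ∈ Z, f z ∈ S := by
    rintro z ⟨hz1, hz2⟩
    refine mem_of_max hS hab hmax (n := b) ?_ ?_
    · change (z.1 : K) • e + (z.2 : K) • (1 - e) ∈ Env S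
      exact (Env S).add_mem ((Env S).smul_mem heA _)
        ((Env S).smul_mem ((Env S).sub_mem (Env S).one_mem heA) _)
    · rw [← map_pow]
      have : z ^ p ^ b = 1 := Prod.ext (by
        have := mem_rootsOfUnity _ _ |>.mp hz1
        exact this) (by
        have := mem_rootsOfUnity _ _ |>.mp hz2
        exact this)
      rw [this, map_one]
  set δ : Z →* Kˣ := ((LinearEquiv.det : (V ≃ₗ[K] V) →* Kˣ).comp f).comp Z.subtype with hδ
  have e1 : Nat.card δ.ker * Nat.card δ.range = Nat.card Z := by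
    rw [← Subgroup.index_ker, Subgroup.card_mul_index]
  have e4 : Nat.card δ.range ≤ p ^ b := by
    rw [← hb]
    refine Subgroup.card_le_of_le ?_
    rintro _ ⟨x, rfl⟩
    rw [mem_rootsOfUnity]
    apply hZ
    obtain ⟨n, hn⟩ := hS ⟨f x, hfS x x.2⟩
    refine ⟨n, ?_⟩
    have e5 : f x ^ p ^ n = 1 := congrArg Subtype.val hn
    change (LinearEquiv.det (f x)) ^ p ^ n = 1
    rw [← map_pow, e5, map_one]
  have e6 : p ^ b ≤ Nat.card δ.ker := by
    by_contra hlt
    push Not at hlt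
    have e7 : Nat.card δ.ker * Nat.card δ.range < p ^ b * p ^ b := by
      calc Nat.card δ.ker * Nat.card δ.range ≤ Nat.card δ.ker * p ^ b :=
            Nat.mul_le_mul_left _ e4
        _ < p ^ b * p ^ b := Nat.mul_lt_mul_of_pos_right hlt hpb
    rw [e1, hZc] at e7
    exact lt_irrefl _ e7
  refine e6.trans ?_
  refine Nat.card_le_card_of_injective (fun x : δ.ker => (⟨f ((x : Z) : Kˣ × Kˣ),
    ⟨hfS _ (x : Z).2, x.2⟩⟩ : T)) ?_
  intro x y hxy
  have e8 : f ((x : Z) : Kˣ × Kˣ) = f ((y : Z) : Kˣ × Kˣ) := congrArg Subtype.val hxy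
  exact Subtype.ext (Subtype.ext (hfi e8))

omit [Finite K] [Finite V] [Fact p.Prime] in
/-- units of the enveloping algebra -/
theorem isUnit_of {S : Subgroup (V ≃ₗ[K] V)} {Q0 : ℕ} (hQ2 : 2 ≤ Q0)
    (hQ : ∀ x ∈ Env S, x ^ Q0 = x) (hid : ∀ e ∈ Env S, e * e = e → e ≠ 0 → e = 1)
    {y : Module.End K V} (hyA : y ∈ Env S) (hy0 : y ≠ 0) : IsUnit y := by
  have hyQ := hQ y hyA
  have e1 : y ^ (Q0 - 1) * y = y := by
    rw [← pow_succ, Nat.sub_add_cancel (by omega), hyQ]
  have e2 : y ^ (Q0 - 1) * y ^ (Q0 - 1) = y ^ (Q0 - 1) := by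
    have e3 : y ^ (Q0 - 1) * y ^ (Q0 - 1) = (y ^ (Q0 - 1) * y) * y ^ (Q0 - 2) := by
      rw [mul_assoc, ← pow_succ', show Q0 - 2 + 1 = Q0 - 1 by omega]
    rw [e3, e1, ← pow_succ', show Q0 - 2 + 1 = Q0 - 1 by omega]
  by_cases h3 : y ^ (Q0 - 1) = 0
  · exfalso
    rw [h3, zero_mul] at e1
    exact hy0 e1.symm
  · have h4 := hid _ (Subalgebra.pow_mem _ hyA _) e2 h3
    exact IsUnit.of_pow_eq_one h4 (by omega)

/-- **The numbers.** -/
theorem card_le_sq_or (S : Subgroup (V ≃ₗ[K] V)) (hS : IsPGroup p S) (hpK : ¬ p ∣ Nat.card K)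
    (hab : ∀ x ∈ S, ∀ y ∈ S, x * y = y * x)
    (hmax : ∀ P : Subgroup (V ≃ₗ[K] V), S ≤ P → IsPGroup p P → (∀ x ∈ P, (x : V →ₗ[K] V) ∈
      Submodule.span K (Set.range fun s : S => ((s : V ≃ₗ[K] V) : V →ₗ[K] V))) → P = S) :
    IsCyclic S ∨ Nat.card S ≤
      Nat.card (S ⊓ (LinearEquiv.det : (V ≃ₗ[K] V) →* Kˣ).ker : Subgroup _) ^ 2 := by
  classical
  have hfin : Finite (V ≃ₗ[K] V) :=
    Finite.of_injective (fun g : V ≃ₗ[K] V => (g : V → V)) DFunLike.coe_injective
  rcases subsingleton_or_nontrivial V with hV | hV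
  · left
    have : Subsingleton (V ≃ₗ[K] V) := ⟨fun a b => LinearEquiv.ext fun v => Subsingleton.elim _ _⟩
    have : Subsingleton S := ⟨fun a b => Subtype.ext (Subsingleton.elim _ _)⟩
    infer_instance
  obtain ⟨b, hb, -, hZ⟩ := exists_Z (K := K) (p := p)
  obtain ⟨Q0, hQ2, hQ⟩ := exists_pow_eq hS hpK hab
  by_cases hid : ∃ e ∈ Env S, e * e = e ∧ e ≠ 0 ∧ e ≠ 1
  · right
    obtain ⟨e, heA, he, h0, h1'⟩ := hid
    have h1 := card_le_mul hb hZ hS
    have h2 := le_of_idem hb hZ hS hab hmax heA he h0 h1'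
    rw [sq]
    exact h1.trans (Nat.mul_le_mul_left _ h2)
  · left
    push Not at hid
    let _ : CommRing (Env S) :=
      { (inferInstance : Ring (Env S)) with
        mul_comm := fun x y => Subtype.ext (env_comm hab x.2 y.2) }
    have hnt : Nontrivial (Env S) := inferInstance
    have hdom : IsDomain (Env S) := by
      have : NoZeroDivisors (Env S) := by
        refine ⟨fun {x y} hxy => ?_⟩
        by_contra hcon
        push Not at hcon
        have hx0 : (x : Module.End K V) ≠ 0 := fun h => hcon.1 (Subtype.ext h)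
        have hxu := isUnit_of hQ2 hQ hid x.2 hx0
        have h3 : (x : Module.End K V) * (y : Module.End K V) = 0 := congrArg Subtype.val hxy
        have h4 : (y : Module.End K V) = 0 := hxu.mul_left_cancel (by rw [h3, mul_zero])
        exact hcon.2 (Subtype.ext h4)
      exact NoZeroDivisors.to_isDomain _
    let f : S →* Env S :=
      { toFun := fun s => ⟨((s : V ≃ₗ[K] V) : V →ₗ[K] V), mem_Env_of s.2⟩
        map_one' := rfl
        map_mul' := fun _ _ => rfl }
    refine isCyclic_of_injective_ringHom f fun x y hxy => ?_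
    have h5 : ((x : V ≃ₗ[K] V) : V →ₗ[K] V) = ((y : V ≃ₗ[K] V) : V →ₗ[K] V) :=
      congrArg Subtype.val hxy
    apply Subtype.ext
    ext v
    exact LinearMap.congr_fun h5 v

/-- The numbers, if `S ∩ SL` is not scalar. -/
theorem card_le_sq (S : Subgroup (V ≃ₗ[K] V)) (hS : IsPGroup p S) (hpK : ¬ p ∣ Nat.card K)
    (hab : ∀ x ∈ S, ∀ y ∈ S, x * y = y * x)
    (hmax : ∀ P : Subgroup (V ≃ₗ[K] V), S ≤ P → IsPGroup p P → (∀ x ∈ P, (x : V →ₗ[K] V) ∈
      Submodule.span K (Set.range fun s : S => ((s : V ≃ₗ[K] V) : V →ₗ[K] V))) → P = S)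
    (hns : ∃ t ∈ S, LinearEquiv.det t = 1 ∧ ¬ ∃ c : K, ∀ v, t v = c • v) :
    Nat.card S ≤ Nat.card (S ⊓ (LinearEquiv.det : (V ≃ₗ[K] V) →* Kˣ).ker : Subgroup _) ^ 2 := by
  classical
  obtain ⟨t, htS, htd, htn⟩ := hns
  have hV : Nontrivial V := by
    by_contra h
    rw [not_nontrivial_iff_subsingleton] at h
    exact htn ⟨0, fun v => Subsingleton.elim _ _⟩
  have hfin : Finite (V ≃ₗ[K] V) :=
    Finite.of_injective (fun g : V ≃ₗ[K] V => (g : V → V)) DFunLike.coe_injective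
  obtain ⟨b, hb, ⟨ζ, hζ⟩, hZ⟩ := exists_Z (K := K) (p := p)
  have hpb : 0 < p ^ b := pow_pos hp.out.pos b
  set T : Subgroup (V ≃ₗ[K] V) := S ⊓ (LinearEquiv.det : (V ≃ₗ[K] V) →* Kˣ).ker with hT
  have h1 : Nat.card S ≤ Nat.card T * p ^ b := card_le_mul hb hZ hS
  have h2 : p ^ b ≤ Nat.card T := by
    obtain ⟨Q0, hQ2, hQ⟩ := exists_pow_eq hS hpK hab
    by_cases hid : ∃ e ∈ Env S, e * e = e ∧ e ≠ 0 ∧ e ≠ 1
    · obtain ⟨e, heA, he, h0, h1'⟩ := hid
      exact le_of_idem hb hZ hS hab hmax heA he h0 h1'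
    · push Not at hid
      by_contra hlt
      push Not at hlt
      obtain ⟨n, hn⟩ := hS ⟨t, htS⟩
      have hn' : t ^ p ^ n = 1 := congrArg Subtype.val hn
      obtain ⟨j, -, hj⟩ := (Nat.dvd_prime_pow hp.out).mp (orderOf_dvd_of_pow_eq_one hn')
      have hjT : p ^ j ≤ Nat.card T := by
        have e1 : orderOf (⟨t, htS, htd⟩ : T) = p ^ j := by
          rw [← hj]
          exact (orderOf_injective T.subtype T.subtype_injective _).symm
        rw [← e1]
        exact Nat.le_of_dvd Nat.card_pos (orderOf_dvd_natCard _)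
      have hjb : j ≤ b := by
        have e2 : p ^ j < p ^ b := lt_of_le_of_lt hjT hlt
        exact ((Nat.pow_lt_pow_iff_right hp.out.one_lt).mp e2).le
      have htb : t ^ p ^ b = 1 := by
        rw [← orderOf_dvd_iff_pow_eq_one, hj]
        exact pow_dvd_pow p hjb
      set x : Module.End K V := (t : V →ₗ[K] V) with hx
      have hxA : x ∈ Env S := mem_Env_of htS
      have hunit : ∀ c : K, IsUnit (x - algebraMap K (Module.End K V) c) := by
        intro c
        refine isUnit_of hQ2 hQ hid ((Env S).sub_mem hxA ((Env S).algebraMap_mem c)) ?_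
        intro h0
        apply htn
        refine ⟨c, fun v => ?_⟩
        have h3 := LinearMap.congr_fun (sub_eq_zero.mp h0) v
        exact h3
      have hprim : IsPrimitiveRoot (ζ : K) (p ^ b) := by
        rw [IsPrimitiveRoot.coe_units_iff]
        have := IsPrimitiveRoot.orderOf ζ
        rwa [hζ] at this
      have hpoly := Polynomial.X_pow_sub_one_eq_prod (R := K) hpb hprim
      have hU : IsUnit (Polynomial.aeval x ((Polynomial.X : Polynomial K) ^ p ^ b - 1)) := by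
        rw [hpoly]
        refine Finset.prod_induction _ (fun P : Polynomial K => IsUnit (Polynomial.aeval x P))
          (fun P Q hP hQ => by rw [map_mul]; exact hP.mul hQ) (by rw [map_one]; exact isUnit_one)
          fun c _ => ?_
        rw [map_sub, Polynomial.aeval_X, Polynomial.aeval_C]
        exact hunit c
      have hx1 : x ^ p ^ b = 1 := by
        have := congrArg (LinearEquiv.automorphismGroup.toLinearMapMonoidHom (R := K) (M := V)) htb
        rw [map_pow, map_one] at this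
        exact this
      rw [map_sub, map_pow, Polynomial.aeval_X, map_one, hx1, sub_self] at hU
      exact not_isUnit_zero hU
  calc Nat.card S ≤ Nat.card T * p ^ b := h1
    _ ≤ Nat.card T * Nat.card T := Nat.mul_le_mul_left _ h2
    _ = Nat.card T ^ 2 := (sq _).symm

end Vale.Agent.P180.H354.NumS
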